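import Vale.Agent.P262.Pot

/-! The birth transition. -/

namespace Vale.Agent.P262

open scoped InnerProductSpace
open Finset

variable {E : Type*} [NormedAddCommGroup E] [InnerProductSpace ℝ E]

/-- state after a birth -/
noncomputable def birthP (P : St E) (e : E) (l : ℕ) : St E :=
  fun i => P i + rk (if l < i then e else 0)

/-- data of a birth -/
def birthD (P : St E) (e : E) (l : ℕ) : Dat E :=
  ⟨0, 0, e, l, sl P, fun j => if j = l then e else 0, fun j => if j = l then 1 else 0⟩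

variable {A : E →ₗ[ℝ] E} {μ : ℕ → ℝ} {J l : ℕ} {P : St E} {e : E} {p : ℝ}

theorem birth_sl (j : ℕ) : sl (birthP P e l) j = sl P j + rk (if j = l then e else 0) := by
  ext x
  simp only [sl_apply, birthP, LinearMap.add_apply, rk_apply]
  rcases lt_trichotomy j l with h | rfl | h
  · rw [if_neg (by omega), if_neg (by omega), if_neg (by omega)]; simp
  · simp; abel
  · rw [if_pos (by omega), if_pos h, if_neg (by omega)]; simp

theorem ite_ker (he : ∀ i, P i e = 0) (c : Prop) [Decidable c] (i : ℕ) :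
    P i (if c then e else 0) = 0 := by split_ifs <;> simp [he]

theorem ite_uz (h1 : ⟪e, e⟫_ℝ = 1) (c : Prop) [Decidable c] : UZ (if c then e else 0) := by
  split_ifs
  · exact Or.inr h1
  · exact UZ.zero

theorem birth_flag (hF : Flag P) (he : ∀ i, P i e = 0) (h1 : ⟪e, e⟫_ℝ = 1) :
    Flag (birthP P e l) := by
  refine ⟨fun i => (hF.isP i).add_rk (ite_ker he _ _) (ite_uz h1 _), ?_, fun i j hij x => ?_⟩
  · simp [birthP, hF.zero, rk_zero]
  · simp only [birthP, LinearMap.add_apply, rk_apply, map_add, map_smul, ite_ker he,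
      hF.nest i j hij, (hF.isP i).orth (ite_ker he _ _) ((hF.isP i).idem x)]
    by_cases h : l < i
    · rw [if_pos h, if_pos (by omega), h1]; simp
    · simp [h]

theorem qf_birth (hA : A.IsSymmetric) (hAe : A e = p • e) (h1 : ⟪e, e⟫_ℝ = 1) {y : E}
    (hy : ⟪e, y⟫_ℝ = 0) (c : ℝ) :
    qf A (y + c • e) = qf A y + c ^ 2 * p ∧ ‖y + c • e‖ ^ 2 = ‖y‖ ^ 2 + c ^ 2 := by
  constructor
  · rw [qf_add hA, qf_smul, map_smul, hAe, inner_smul_right, inner_smul_right, real_inner_comm, hy,
      qf, qf, hAe, inner_smul_right, h1]; ring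
  · rw [sq_add_of_orth (by rw [inner_smul_right, real_inner_comm, hy, mul_zero]), norm_smul,
      mul_pow, ← real_inner_self_eq_norm_sq e, h1, Real.norm_eq_abs, sq_abs, mul_one]

theorem birth_up (hA : A.IsSymmetric) (hμ : ∀ j, 0 < μ j) (hμ' : ∀ j, μ (j + 1) = 64 * μ j)
    (hF : Flag P) (he : ∀ i, P i e = 0) (h1 : ⟪e, e⟫_ℝ = 1) (hAe : A e = p • e) (hp : p ≤ μ l)
    (hU : Up A μ 1 P) : Up A μ 1 (birthP P e l) := by
  intro i x hx
  have h2 := hU i _ ((hF.isP (i + 1)).idem x)
  simp only [birthP, LinearMap.add_apply, rk_apply] at hx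
  split_ifs at hx with h
  · obtain ⟨q1, q2⟩ := qf_birth hA hAe h1 ((hF.isP _).orth (he (i + 1)) ((hF.isP (i + 1)).idem x))
      ⟪e, x⟫_ℝ
    rw [hx] at q1 q2
    have := mu_mono hμ hμ' (show l ≤ i by omega)
    rw [q1, q2]
    nlinarith [sq_nonneg ⟪e, x⟫_ℝ]
  · simp only [smul_zero, add_zero] at hx
    rwa [hx] at h2

theorem birth_lo (hA : A.IsSymmetric) (hμ : ∀ j, 0 < μ j)
    (hF : Flag P) (he : ∀ i, P i e = 0) (h1 : ⟪e, e⟫_ℝ = 1) (hAe : A e = p • e)
    (hp : μ l ≤ 64 * p) (hL : Lo A μ J P) : Lo A μ J (birthP P e l) := by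
  intro j hj x hx
  have h2 := hL j hj _ ((hF.sl j).idem x)
  rw [birth_sl, LinearMap.add_apply, rk_apply] at hx
  split_ifs at hx with h
  · obtain ⟨q1, q2⟩ := qf_birth hA hAe h1
      ((hF.isP _).orth (he (j + 1)) (hF.sl_top ((hF.sl j).idem x))) ⟪e, x⟫_ℝ
    rw [hx] at q1 q2
    rw [q1, q2]
    subst h
    nlinarith [sq_nonneg ⟪e, x⟫_ℝ, hμ j]
  · simp only [smul_zero, add_zero] at hx
    rwa [hx] at h2

variable [FiniteDimensional ℝ E]

theorem birth_good (hμ : ∀ j, 0 < μ j) (hF : Flag P) (he : ∀ i, P i e = 0) (h1 : ⟪e, e⟫_ℝ = 1)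
    (hAe : A e = p • e) (hp : p ≤ μ l) : Good A μ J P (birthD P e l) (birthP P e l) := by
  have n1 : ‖e‖ ^ 2 = 1 := by rw [← real_inner_self_eq_norm_sq, h1]
  have k0 : ∀ j, (0 : ℝ) ≤ if j = l then 1 else 0 := fun j => by split_ifs <;> norm_num
  refine ⟨fun i x => by by_cases h : l < i <;> simp [birthP, birthD, Dat.β, h], fun i => by simp [birthD],
    fun i => UZ.zero, rfl, he, Or.inr h1, ⟨p, hp, hAe⟩, fun i => by simp [birthD],
    fun i => by simp [birthD], fun i => UZ.zero, fun i => by simpa [birthD] using k0 i,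
    fun i => ?_, fun j => hF.sl j, fun j x => hF.sl_top ((hF.sl j).idem x),
    fun j x => by rw [birth_sl]; rfl, fun j => ?_, fun j => ite_uz h1 _, fun j => ?_, fun j => ?_,
    fun j => by simpa [birthD] using k0 j, fun j => ?_, fun i j _ => by simp [birthD],
    fun i j _ h => by simp [birthD] at h⟩
  · have := k0 i; have := hμ i
    simp only [birthD, Pi.zero_apply, qf_zero]; positivity
  · simp only [birthD, sl_apply, ite_ker he, sub_self]
  · simp only [birthD]; split_ifs <;> simp [n1]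
  · simp only [birthD]; split_ifs with h
    · rw [qf, hAe, inner_smul_right, h1, h]; linarith [hμ l]
    · simp [qf_zero]
  · rw [birth_sl, tr_add_rk]
    simp only [birthD]; split_ifs <;> simp [n1]

omit [FiniteDimensional ℝ E] in
theorem birth_cost (hμ : ∀ j, 0 < μ j) : cost μ J (birthD P e l) ≤ μ l := by
  simp only [cost, birthD, mul_ite, mul_one, mul_zero, Finset.sum_ite_eq', mem_range]
  split_ifs
  · exact le_rfl
  · exact (hμ l).le

theorem birth_pot (hA : A.IsSymmetric) (hμ : ∀ j, 0 < μ j) (hμ' : ∀ j, μ (j + 1) = 64 * μ j)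
    (hF : Flag P) (he : ∀ i, P i e = 0) (h1 : ⟪e, e⟫_ℝ = 1) (hAe : A e = p • e) (hp0 : 0 ≤ p)
    (hp : p ≤ μ l) : pot A μ J (birthP P e l) ≤ pot A μ J P + μ l + 8 * p := by
  have n1 : ‖e‖ ^ 2 = 1 := by rw [← real_inner_self_eq_norm_sq, h1]
  have key : ∀ j, μ j * tr (sl (birthP P e l) j) + 4 * (hs A (birthP P e l (j + 1)) / μ j) =
      μ j * tr (sl P j) + 4 * (hs A (P (j + 1)) / μ j) + μ j * (birthD P e l).κ j
        + 4 * p ^ 2 * (if l ≤ j then 1 / μ j else 0) := fun j => by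
    rw [birth_sl, tr_add_rk, birthP, hs_upd hA (hF.isP _) (ite_ker he _ _) (ite_uz h1 _)]
    simp only [birthD]
    rcases lt_trichotomy j l with h | rfl | h
    · rw [if_neg (by omega), if_neg (by omega), if_neg (by omega), if_neg (by omega)]; simp
    · simp [hAe, he, n1, h1, norm_smul, mul_pow, -inner_self_eq_norm_sq_to_K]; ring
    · rw [if_neg (by omega), if_pos (by omega), if_neg (by omega), if_pos (by omega)]
      simp [hAe, he, n1, h1, norm_smul, mul_pow, -inner_self_eq_norm_sq_to_K]; ring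
  simp only [pot, key, Finset.sum_add_distrib, ← Finset.mul_sum]
  have c1 := birth_cost (J := J) (P := P) (e := e) (l := l) hμ
  have c2 := mu_inv_sum hμ hμ' l J
  have c3 : 4 * p ^ 2 * (2 / μ l) ≤ 8 * p := by
    have := hμ l
    rw [mul_div_assoc', div_le_iff₀ this]; nlinarith
  have c4 := mul_le_mul_of_nonneg_left c2 (show 0 ≤ 4 * p ^ 2 by positivity)
  rw [cost] at c1
  linarith

end Vale.Agent.P262
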