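import Mathlib

/-! Certificates: finite lists of linear checks with a quadratic cost. -/

namespace Vale.Agent.P262

open scoped InnerProductSpace
open Finset

variable {E : Type*} [NormedAddCommGroup E] [InnerProductSpace ℝ E]

/-- the quadratic form of `A` -/
def qf (A : E →ₗ[ℝ] E) (x : E) : ℝ := ⟪x, A x⟫_ℝ

theorem qf_smul (A : E →ₗ[ℝ] E) (r : ℝ) (x : E) : qf A (r • x) = r ^ 2 * qf A x := by
  simp only [qf, map_smul, inner_smul_left, inner_smul_right, conj_trivial]; ring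

theorem qf_zero (A : E →ₗ[ℝ] E) : qf A 0 = 0 := by simp [qf]

theorem qf_add {A : E →ₗ[ℝ] E} (hA : A.IsSymmetric) (x y : E) :
    qf A (x + y) = qf A x + 2 * ⟪x, A y⟫_ℝ + qf A y := by
  have h : ⟪y, A x⟫_ℝ = ⟪x, A y⟫_ℝ := by rw [← hA y x, real_inner_comm]
  simp only [qf, map_add, inner_add_left, inner_add_right, h]; ring

/-- `P` is guaranteed by linear checks of total cost at most `c`. -/
def Cert (A : E →ₗ[ℝ] E) (c : ℝ) (P : E → Prop) : Prop :=
  ∃ Φ : List E, (Φ.map (qf A)).sum ≤ c ∧ ∀ t, (∀ φ ∈ Φ, |⟪φ, t⟫_ℝ| ≤ 1) → P t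

variable {A : E →ₗ[ℝ] E}

theorem Cert.mono {c c' : ℝ} {P P' : E → Prop} (h : Cert A c P) (hc : c ≤ c')
    (hP : ∀ t, P t → P' t) : Cert A c' P' := by
  obtain ⟨Φ, h1, h2⟩ := h
  exact ⟨Φ, h1.trans hc, fun t ht => hP t (h2 t ht)⟩

theorem Cert.triv {c : ℝ} {P : E → Prop} (hc : 0 ≤ c) (hP : ∀ t, P t) : Cert A c P :=
  ⟨[], by simpa using hc, fun t _ => hP t⟩

theorem Cert.and {c c' : ℝ} {P P' : E → Prop} (h : Cert A c P) (h' : Cert A c' P') :
    Cert A (c + c') (fun t => P t ∧ P' t) := by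
  obtain ⟨Φ, h1, h2⟩ := h
  obtain ⟨Φ', h1', h2'⟩ := h'
  refine ⟨Φ ++ Φ', by simp only [List.map_append, List.sum_append]; linarith, fun t ht => ⟨?_, ?_⟩⟩
  · exact h2 t fun φ hφ => ht φ (List.mem_append_left _ hφ)
  · exact h2' t fun φ hφ => ht φ (List.mem_append_right _ hφ)

theorem Cert.single (φ : E) : Cert A (qf A φ) (fun t => |⟪φ, t⟫_ℝ| ≤ 1) :=
  ⟨[φ], by simp, fun t ht => ht φ (by simp)⟩

theorem Cert.sum {ι : Type*} (s : Finset ι) (c : ι → ℝ) (P : ι → E → Prop)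
    (h : ∀ i ∈ s, Cert A (c i) (P i)) : Cert A (∑ i ∈ s, c i) (fun t => ∀ i ∈ s, P i t) := by
  classical
  induction s using Finset.induction_on with
  | empty => exact Cert.triv (by simp) (by simp)
  | insert a s ha ih =>
    rw [Finset.sum_insert ha]
    refine ((h a (mem_insert_self _ _)).and (ih fun i hi => h i (mem_insert_of_mem hi))).mono
      le_rfl ?_
    rintro t ⟨h1, h2⟩ i hi
    rcases mem_insert.1 hi with rfl | hi
    · exact h1
    · exact h2 i hi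

theorem exists_eigen {F : Type*} [NormedAddCommGroup F] [InnerProductSpace ℝ F]
    [FiniteDimensional ℝ F] {S : F →ₗ[ℝ] F} (hS : S.IsSymmetric) :
    ∃ (r : OrthonormalBasis (Fin (Module.finrank ℝ F)) ℝ F) (g : Fin (Module.finrank ℝ F) → ℝ),
      (∀ a, S (r a) = g a • r a) ∧ (∀ y, ⟪y, S y⟫_ℝ = ∑ a, g a * ⟪r a, y⟫_ℝ ^ 2) ∧
      LinearMap.trace ℝ F S = ∑ a, g a := by
  refine ⟨hS.eigenvectorBasis rfl, hS.eigenvalues rfl, fun a => ?_, fun y => ?_, ?_⟩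
  · simp
  · rw [← (hS.eigenvectorBasis rfl).sum_inner_mul_inner y (S y)]
    refine Finset.sum_congr rfl fun a _ => ?_
    have h := hS.apply_eigenvectorBasis rfl a
    rw [← hS, h, real_inner_comm]
    simp only [RCLike.ofReal_real_eq_id, id_eq, inner_smul_left, conj_trivial]; ring
  · rw [LinearMap.trace_eq_sum_inner S (hS.eigenvectorBasis rfl)]
    refine Finset.sum_congr rfl fun a _ => ?_
    have h := hS.apply_eigenvectorBasis rfl a
    rw [h]
    simp [inner_smul_right]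

theorem cert_op {F : Type*} [NormedAddCommGroup F] [InnerProductSpace ℝ F]
    [FiniteDimensional ℝ F] {S : F →ₗ[ℝ] F} (hS : S.IsSymmetric) (hS0 : ∀ x, 0 ≤ ⟪x, S x⟫_ℝ)
    (Ls : F → E) (L : E → F) (hL : ∀ x t, ⟪x, L t⟫_ℝ = ⟪Ls x, t⟫_ℝ) {c ρ : ℝ} (hρ : 0 < ρ)
    (hc : ∀ r : OrthonormalBasis (Fin (Module.finrank ℝ F)) ℝ F, ∑ a, qf A (Ls (r a)) ≤ c) :
    Cert A (c / ρ ^ 2) (fun t => ⟪L t, S (L t)⟫_ℝ ≤ ρ ^ 2 * LinearMap.trace ℝ F S) := by
  obtain ⟨r, g, h1, h2, h3⟩ := exists_eigen hS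
  have hg : ∀ a, 0 ≤ g a := fun a => by
    have := hS0 (r a)
    rw [h1] at this
    simpa [inner_smul_right] using this
  refine (Cert.sum univ (fun a => qf A (ρ⁻¹ • Ls (r a))) _
    (fun a _ => Cert.single (ρ⁻¹ • Ls (r a)))).mono ?_ ?_
  · simp only [qf_smul]
    rw [← Finset.mul_sum, div_eq_inv_mul, inv_pow]
    exact mul_le_mul_of_nonneg_left (hc r) (by positivity)
  · intro t ht
    rw [h2, h3, Finset.mul_sum]
    refine Finset.sum_le_sum fun a _ => ?_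
    have h := ht a (mem_univ _)
    rw [inner_smul_left, ← hL] at h
    simp only [conj_trivial, abs_mul, abs_inv, abs_of_pos hρ] at h
    have h' : |⟪r a, L t⟫_ℝ| ≤ ρ := by
      rw [inv_mul_le_iff₀ hρ] at h; simpa using h
    have : ⟪r a, L t⟫_ℝ ^ 2 ≤ ρ ^ 2 := by
      rw [← sq_abs]; exact pow_le_pow_left₀ (abs_nonneg _) h' 2
    nlinarith [hg a]

end Vale.Agent.P262
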