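import Vale.Agent.P262.Check

/-! The chaining lemma along a clock. -/

namespace Vale.Agent.P262

open scoped InnerProductSpace
open Finset

theorem exists_stop (f : ℕ → ℝ) (B : ℝ) (h0 : f 0 ≤ B) (n : ℕ) :
    ∃ m ≤ n, f m ≤ B ∧ (m = n ∨ B < f (m + 1)) := by
  induction n with
  | zero => exact ⟨0, le_rfl, h0, Or.inl rfl⟩
  | succ n ih =>
    obtain ⟨m, hm, h1, h2⟩ := ih
    rcases h2 with rfl | h2
    · by_cases h : f (m + 1) ≤ B
      · exact ⟨m + 1, le_rfl, h, Or.inl rfl⟩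
      · exact ⟨m, hm.trans (Nat.le_succ _), h1, Or.inr (not_le.1 h)⟩
    · exact ⟨m, hm.trans (Nat.le_succ _), h1, Or.inr h2⟩

variable {E : Type*} [NormedAddCommGroup E] [InnerProductSpace ℝ E]

/-- the driven recursion started at time `a` -/
noncomputable def Yc (R : ℕ → E →ₗ[ℝ] E) (N b : ℕ → E) (t : E) (a : ℕ) : ℕ → E
  | 0 => 0
  | m + 1 => R (a + m) (Yc R N b t a m) + ⟪b (a + m), t⟫_ℝ • N (a + m)

theorem Yc_split {R : ℕ → E →ₗ[ℝ] E} {N b : ℕ → E} {n₀ : ℕ}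
    (hR : ∀ τ < n₀, ∀ x, ‖R τ x‖ ≤ ‖x‖) (t : E) (a m τ : ℕ) (h : a + m + τ ≤ n₀) :
    ‖Yc R N b t a (m + τ) - Yc R N b t (a + m) τ‖ ≤ ‖Yc R N b t a m‖ := by
  induction τ with
  | zero => simp [Yc]
  | succ τ ih =>
    rw [← add_assoc m τ 1, Yc, Yc, ← add_assoc a m τ, add_sub_add_right_eq_sub, ← map_sub]
    exact (hR _ (by omega) _).trans (ih (by omega))

theorem Yc_rep {R Q : ℕ → E →ₗ[ℝ] E} {N b : ℕ → E} {n₀ : ℕ}
    (hR : ∀ τ < n₀, ∀ x, ‖R τ x‖ ≤ ‖x‖) (hQR : ∀ τ < n₀, ∀ x, Q τ (R τ x) = R τ x)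
    (hQN : ∀ τ < n₀, Q τ (N τ) = N τ) (a m : ℕ) (h : a + m ≤ n₀) :
    ∃ N' : ℕ → E, (∀ σ ∈ Ico a (a + m), ‖N' σ‖ ≤ ‖N σ‖) ∧
      (∀ σ ∈ Ico a (a + m), Q (a + m - 1) (N' σ) = N' σ) ∧
      ∀ t, Yc R N b t a m = ∑ σ ∈ Ico a (a + m), ⟪b σ, t⟫_ℝ • N' σ := by
  induction m with
  | zero => exact ⟨N, by simp, by simp, by simp [Yc]⟩
  | succ m ih =>
    obtain ⟨N', h1, -, h3⟩ := ih (by omega)
    refine ⟨fun σ => if σ = a + m then N σ else R (a + m) (N' σ), fun σ hσ => ?_,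
      fun σ hσ => ?_, fun t => ?_⟩
    · beta_reduce
      split_ifs with hh
      · exact le_rfl
      · rw [mem_Ico] at hσ
        exact (hR _ (by omega) _).trans (h1 σ (mem_Ico.2 ⟨hσ.1, by omega⟩))
    · have e : a + (m + 1) - 1 = a + m := by omega
      rw [e]
      beta_reduce
      split_ifs with hh
      · rw [hh]; exact hQN _ (by omega)
      · exact hQR _ (by omega) _
    · rw [Yc, h3, ← add_assoc, Finset.sum_Ico_succ_top (by omega), map_sum]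
      simp only [if_true, map_smul]
      congr 1
      refine Finset.sum_congr rfl fun σ hσ => ?_
      rw [mem_Ico] at hσ
      rw [if_neg (by omega)]

variable [FiniteDimensional ℝ E] {A : E →ₗ[ℝ] E}

theorem chain (hA0 : ∀ x, 0 ≤ qf A x) {R Q : ℕ → E →ₗ[ℝ] E} {N b : ℕ → E} {k : ℕ → ℝ} {n₀ : ℕ}
    {μ S η : ℝ} (hμ : 0 ≤ μ) (hη : 0 < η) (hS : 0 ≤ S)
    (hR : ∀ τ < n₀, ∀ x, ‖R τ x‖ ≤ ‖x‖) (hQ : ∀ τ < n₀, IsP (Q τ))
    (hQR : ∀ τ < n₀, ∀ x, Q τ (R τ x) = R τ x)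
    (hQN : ∀ τ < n₀, Q τ (N τ) = N τ) (htr : ∀ τ < n₀, tr (Q τ) ≤ 2 * S)
    (hk : ∀ τ < n₀, ‖N τ‖ ^ 2 ≤ k τ)
    (hB : ∀ s ⊆ range n₀, ∀ l : ℕ → ℝ, qf A (∑ σ ∈ s, l σ • b σ) ≤ μ * ∑ σ ∈ s, l σ ^ 2)
    (n : ℕ) : ∀ a, a + n ≤ n₀ → ∀ y ω : ℝ, 0 < y → 0 < ω →
      ∑ σ ∈ Ico a (a + n), k σ ≤ S * y ^ 2 →
      Cert A (14 * (y / ω ^ 2) * ∑ σ ∈ Ico a (a + n), (η * k σ + μ / η * qf A (b σ)))
        (fun t => ∀ τ ≤ n, ‖Yc R N b t a τ‖ ≤ 10 * ω * √S) := by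
  induction n using Nat.strong_induction_on with
  | _ n ih =>
  intro a han y ω hy hω hc
  have hk0 : ∀ τ < n₀, 0 ≤ k τ := fun τ h => le_trans (by positivity) (hk τ h)
  rcases Nat.eq_zero_or_pos n with rfl | hn
  · refine Cert.triv (by simp) fun t τ hτ => ?_
    obtain rfl : τ = 0 := by omega
    simp only [Yc, norm_zero]; positivity
  obtain ⟨m, hm, h1, h2⟩ := exists_stop (fun m => ∑ σ ∈ Ico a (a + m), k σ) (S * y ^ 2 / 2)
    (by simp only [add_zero, Ico_self, sum_empty]; positivity) (n - 1)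
  have hsplit : ∀ f : ℕ → ℝ, ∑ σ ∈ Ico a (a + n), f σ =
      ∑ σ ∈ Ico a (a + (m + 1)), f σ + ∑ σ ∈ Ico (a + (m + 1)) (a + (m + 1) + (n - (m + 1))), f σ :=
    fun f => by
      rw [Finset.sum_Ico_consecutive _ (by omega) (by omega)]
      congr 2; omega
  have hr0 : 0 ≤ ∑ σ ∈ Ico (a + (m + 1)) (a + (m + 1) + (n - (m + 1))), k σ :=
    Finset.sum_nonneg fun σ hσ => hk0 σ (by rw [mem_Ico] at hσ; omega)
  have h3 : ∑ σ ∈ Ico (a + (m + 1)) (a + (m + 1) + (n - (m + 1))), k σ ≤ S * y ^ 2 / 2 := by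
    rcases h2 with h2 | h2
    · have : n - (m + 1) = 0 := by omega
      rw [this]; simp only [add_zero, Ico_self, sum_empty]; positivity
    · rw [hsplit] at hc; linarith
  have hSy : S * y ^ 2 / 2 ≤ S * (3 / 4 * y) ^ 2 := by nlinarith [mul_nonneg hS (sq_nonneg y)]
  have c1 := ih m (by omega) a (by omega) (3 / 4 * y) (9 / 10 * ω) (by positivity) (by positivity)
    (h1.trans hSy)
  have c2 := ih (n - (m + 1)) (by omega) (a + (m + 1)) (by omega) (3 / 4 * y) (9 / 10 * ω)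
    (by positivity) (by positivity) (h3.trans hSy)
  obtain ⟨N', g1, g2, g3⟩ := Yc_rep (b := b) hR hQR hQN a (m + 1) (by omega)
  have c3 := check hA0 (Ico a (a + (m + 1))) b N' (hQ (a + (m + 1) - 1) (by omega)) g2 hμ hy hω hη
    (hB _ (fun σ hσ => by rw [mem_Ico] at hσ; exact mem_range.2 (by omega)))
    (htr _ (by omega)) (c := ∑ σ ∈ Ico a (a + (m + 1)), k σ)
    (Finset.sum_le_sum fun σ hσ => (pow_le_pow_left₀ (norm_nonneg _) (g1 σ hσ) 2).trans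
      (hk σ (by rw [mem_Ico] at hσ; omega)))
    (by rw [hsplit] at hc; linarith)
  refine ((c1.and c2).and c3).mono ?_ ?_
  · set f : ℕ → ℝ := fun σ => η * k σ + μ / η * qf A (b σ) with hf
    have hf0 : ∀ σ < n₀, 0 ≤ f σ := fun σ h => by
      have := hk0 σ h; have := hA0 (b σ); positivity
    have e1 : η * ∑ σ ∈ Ico a (a + (m + 1)), k σ + μ / η * ∑ σ ∈ Ico a (a + (m + 1)), qf A (b σ)
        = ∑ σ ∈ Ico a (a + (m + 1)), f σ := by
      rw [Finset.mul_sum, Finset.mul_sum, ← Finset.sum_add_distrib]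
    rw [e1, hsplit f]
    have e2 : ∑ σ ∈ Ico a (a + m), f σ ≤ ∑ σ ∈ Ico a (a + (m + 1)), f σ := by
      rw [← add_assoc, Finset.sum_Ico_succ_top (by omega)]
      linarith [hf0 (a + m) (by omega)]
    have e3 : 0 ≤ ∑ σ ∈ Ico a (a + m), f σ :=
      Finset.sum_nonneg fun σ hσ => hf0 σ (by rw [mem_Ico] at hσ; omega)
    have e4 : 0 ≤ ∑ σ ∈ Ico (a + (m + 1)) (a + (m + 1) + (n - (m + 1))), f σ :=
      Finset.sum_nonneg fun σ hσ => hf0 σ (by rw [mem_Ico] at hσ; omega)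
    have e5 : 3 / 4 * y / (9 / 10 * ω) ^ 2 = 25 / 27 * (y / ω ^ 2) := by field_simp; norm_num
    rw [e5]
    have e6 : 0 < y / ω ^ 2 := by positivity
    nlinarith [mul_nonneg e6.le e3, mul_nonneg e6.le e4, mul_le_mul_of_nonneg_left e2 e6.le]
  · rintro t ⟨⟨t1, t2⟩, t3⟩ τ hτ
    have hs : 0 ≤ ω * √S := by positivity
    by_cases hτm : τ ≤ m
    · have := t1 τ hτm; nlinarith
    · obtain ⟨τ', rfl⟩ : ∃ τ', τ = m + 1 + τ' := ⟨τ - (m + 1), by omega⟩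
      have e1 := Yc_split (N := N) (b := b) hR t a (m + 1) τ' (by omega)
      have e2 := t2 τ' (by omega)
      have e3 : ‖Yc R N b t a (m + 1)‖ ≤ ω * √S := by
        rw [← g3] at t3
        refine (pow_le_pow_iff_left₀ (norm_nonneg _) hs two_ne_zero).1 ?_
        rw [mul_pow, Real.sq_sqrt hS]; exact t3
      have e4 := norm_sub_norm_le (Yc R N b t a (m + 1 + τ')) (Yc R N b t (a + (m + 1)) τ')
      nlinarith

end Vale.Agent.P262
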