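import Vale.Agent.P262.Cert

/-! Projections and the check lemma. -/

namespace Vale.Agent.P262

open scoped InnerProductSpace
open Finset

variable {E : Type*} [NormedAddCommGroup E] [InnerProductSpace ℝ E]

/-- orthogonal projections as operators -/
structure IsP (P : E →ₗ[ℝ] E) : Prop where
  symm : P.IsSymmetric
  idem : ∀ x, P (P x) = P x

theorem IsP.inner_self {P : E →ₗ[ℝ] E} (h : IsP P) (x : E) : ⟪x, P x⟫_ℝ = ‖P x‖ ^ 2 := by
  rw [← real_inner_self_eq_norm_sq, h.symm x (P x), h.idem]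

theorem IsP.sq_le {P : E →ₗ[ℝ] E} (h : IsP P) (x : E) : ‖P x‖ ^ 2 ≤ ‖x‖ ^ 2 := by
  have h1 := h.inner_self x
  have h2 := real_inner_le_norm x (P x)
  nlinarith [norm_nonneg x, norm_nonneg (P x), sq_nonneg (‖x‖ - ‖P x‖)]

theorem IsP.norm_le {P : E →ₗ[ℝ] E} (h : IsP P) (x : E) : ‖P x‖ ≤ ‖x‖ :=
  (pow_le_pow_iff_left₀ (norm_nonneg _) (norm_nonneg _) two_ne_zero).1 (h.sq_le x)

theorem IsP.zero : IsP (0 : E →ₗ[ℝ] E) := ⟨LinearMap.IsSymmetric.zero, by simp⟩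

variable [FiniteDimensional ℝ E]

/-- trace -/
noncomputable def tr (P : E →ₗ[ℝ] E) : ℝ := LinearMap.trace ℝ E P

omit [FiniteDimensional ℝ E] in
theorem IsP.tr_eq {P : E →ₗ[ℝ] E} (h : IsP P) {ι : Type*} [Fintype ι]
    (r : OrthonormalBasis ι ℝ E) : tr P = ∑ a, ‖P (r a)‖ ^ 2 := by
  rw [tr, LinearMap.trace_eq_sum_inner P r]
  exact Finset.sum_congr rfl fun a _ => h.inner_self _

theorem IsP.tr_nonneg {P : E →ₗ[ℝ] E} (h : IsP P) : 0 ≤ tr P := by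
  rw [h.tr_eq (stdOrthonormalBasis ℝ E)]; positivity

variable {A : E →ₗ[ℝ] E}

theorem cert_refresh {Q : E →ₗ[ℝ] E} (hQ : IsP Q) {μ : ℝ}
    (hq : ∀ x, Q x = x → qf A x ≤ μ * ‖x‖ ^ 2) :
    Cert A (μ * tr Q) (fun t => ‖Q t‖ ^ 2 ≤ tr Q) := by
  have h := cert_op (A := A) hQ.symm (fun x => by rw [hQ.inner_self]; positivity) Q Q
    (fun x t => (hQ.symm x t).symm) (c := μ * tr Q) one_pos (fun r => by
      rw [hQ.tr_eq r, Finset.mul_sum]
      exact Finset.sum_le_sum fun a _ => hq _ (hQ.idem _))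
  refine h.mono (by simp) fun t ht => ?_
  rw [hQ.inner_self, hQ.idem] at ht
  simpa [tr] using ht

theorem check_a (s : Finset ℕ) (b N : ℕ → E) {Q : E →ₗ[ℝ] E} (hQ : IsP Q)
    (hN : ∀ σ ∈ s, Q (N σ) = N σ) {μ ρ : ℝ} (hρ : 0 < ρ)
    (hB : ∀ l : ℕ → ℝ, qf A (∑ σ ∈ s, l σ • b σ) ≤ μ * ∑ σ ∈ s, l σ ^ 2) :
    Cert A (μ * (∑ σ ∈ s, ‖N σ‖ ^ 2) / ρ ^ 2)
      (fun t => ‖∑ σ ∈ s, ⟪b σ, t⟫_ℝ • N σ‖ ^ 2 ≤ ρ ^ 2 * tr Q) := by
  have h := cert_op (A := A) hQ.symm (fun x => by rw [hQ.inner_self]; positivity)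
    (fun x => ∑ σ ∈ s, ⟪x, N σ⟫_ℝ • b σ) (fun t => ∑ σ ∈ s, ⟪b σ, t⟫_ℝ • N σ)
    (fun x t => by
      simp only [inner_sum, sum_inner, inner_smul_left, inner_smul_right, conj_trivial]
      exact Finset.sum_congr rfl fun σ _ => mul_comm _ _)
    (c := μ * ∑ σ ∈ s, ‖N σ‖ ^ 2) hρ (fun r => by
      refine (Finset.sum_le_sum fun a _ => hB fun σ => ⟪r a, N σ⟫_ℝ).trans (le_of_eq ?_)
      rw [← Finset.mul_sum, Finset.sum_comm]
      congr 1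
      exact Finset.sum_congr rfl fun σ _ => r.sum_sq_inner_right _)
  refine h.mono le_rfl fun t ht => ?_
  have e : Q (∑ σ ∈ s, ⟪b σ, t⟫_ℝ • N σ) = ∑ σ ∈ s, ⟪b σ, t⟫_ℝ • N σ := by
    rw [map_sum]
    exact Finset.sum_congr rfl fun σ hσ => by rw [map_smul, hN σ hσ]
  rw [e, real_inner_self_eq_norm_sq] at ht
  exact ht

theorem check_b (s : Finset ℕ) (b N : ℕ → E) {ρ : ℝ} (hρ : 0 < ρ) :
    Cert A ((∑ σ ∈ s, qf A (b σ)) / ρ ^ 2)
      (fun t => ‖∑ σ ∈ s, ⟪b σ, t⟫_ℝ • N σ‖ ^ 2 ≤ ρ ^ 2 * ∑ σ ∈ s, ‖N σ‖ ^ 2) := by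
  classical
  let F := EuclideanSpace ℝ s
  let e : OrthonormalBasis s ℝ F := EuclideanSpace.basisFun s ℝ
  let comb : (ℕ → E) → F →ₗ[ℝ] E := fun w => ∑ σ : s, (innerₛₗ ℝ (e σ)).smulRight (w σ)
  have hcomb : ∀ w x, comb w x = ∑ σ : s, ⟪e σ, x⟫_ℝ • w σ := fun w x => by
    simp [comb, LinearMap.sum_apply]
  have he : ∀ w (σ : s), comb w (e σ) = w σ := fun w σ => by
    rw [hcomb, Finset.sum_eq_single σ]
    · simp
    · intro τ _ hτ; rw [e.inner_eq_zero hτ, zero_smul]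
    · simp
  let S : F →ₗ[ℝ] F := (LinearMap.adjoint (comb N)) ∘ₗ comb N
  have hS : ∀ x y, ⟪x, S y⟫_ℝ = ⟪comb N x, comb N y⟫_ℝ := fun x y => by
    simp only [S, LinearMap.comp_apply, LinearMap.adjoint_inner_right]
  have hsym : S.IsSymmetric := fun x y => by
    rw [real_inner_comm, hS, hS, real_inner_comm]
  have h := cert_op (A := A) hsym (fun x => by rw [hS]; exact real_inner_self_nonneg)
    (comb b) (fun t => ∑ σ : s, ⟪b σ, t⟫_ℝ • e σ)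
    (fun x t => by
      rw [hcomb, inner_sum, sum_inner]
      refine Finset.sum_congr rfl fun σ _ => ?_
      rw [inner_smul_left, inner_smul_right, conj_trivial, mul_comm, real_inner_comm])
    (c := ∑ σ ∈ s, qf A (b σ)) hρ (fun r => by
      let T : F →ₗ[ℝ] F := (LinearMap.adjoint (comb b)) ∘ₗ A ∘ₗ comb b
      have hT : ∀ x, ⟪x, T x⟫_ℝ = qf A (comb b x) := fun x => by
        simp only [T, LinearMap.comp_apply, LinearMap.adjoint_inner_right, qf]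
      have h1 := LinearMap.trace_eq_sum_inner T r
      have h2 := LinearMap.trace_eq_sum_inner T e
      simp only [hT, he] at h1 h2
      rw [← h1, h2, Finset.sum_coe_sort s (fun σ => qf A (b σ))])
  refine h.mono le_rfl fun t ht => ?_
  rw [hS, LinearMap.trace_eq_sum_inner S e] at ht
  simp only [hS, he, map_sum, map_smul, real_inner_self_eq_norm_sq] at ht
  rw [Finset.sum_coe_sort s (fun σ => ⟪b σ, t⟫_ℝ • N σ),
    Finset.sum_coe_sort s (fun σ => ‖N σ‖ ^ 2)] at ht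
  exact ht

theorem check (hA0 : ∀ x, 0 ≤ qf A x) (s : Finset ℕ) (b N : ℕ → E) {Q : E →ₗ[ℝ] E} (hQ : IsP Q)
    (hN : ∀ σ ∈ s, Q (N σ) = N σ) {μ S c y ω η : ℝ} (hμ : 0 ≤ μ) (hy : 0 < y) (hω : 0 < ω)
    (hη : 0 < η)
    (hB : ∀ l : ℕ → ℝ, qf A (∑ σ ∈ s, l σ • b σ) ≤ μ * ∑ σ ∈ s, l σ ^ 2)
    (htr : tr Q ≤ 2 * S) (hc : ∑ σ ∈ s, ‖N σ‖ ^ 2 ≤ c) (hcy : c ≤ S * y ^ 2) :
    Cert A (y / ω ^ 2 * (η * c + μ / η * ∑ σ ∈ s, qf A (b σ)))
      (fun t => ‖∑ σ ∈ s, ⟪b σ, t⟫_ℝ • N σ‖ ^ 2 ≤ ω ^ 2 * S) := by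
  set m := ∑ σ ∈ s, qf A (b σ) with hm
  have hm0 : 0 ≤ m := Finset.sum_nonneg fun σ _ => hA0 _
  have hc0 : 0 ≤ c := le_trans (by positivity) hc
  set L := η * c + μ / η * m with hL
  have hL0 : 0 ≤ L := by positivity
  have hL2 : 4 * (μ * c * m) ≤ L ^ 2 := by
    have : η * c * (μ / η * m) = μ * c * m := by field_simp
    nlinarith [sq_nonneg (η * c - μ / η * m)]
  by_cases h : 2 * μ * c ≤ y * L
  · have hρ : 0 < ω / √2 := by positivity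
    have e2 : (ω / √2) ^ 2 = ω ^ 2 / 2 := by rw [div_pow, Real.sq_sqrt (by norm_num)]
    refine (check_a s b N hQ hN hρ hB).mono ?_ fun t ht => ?_
    · rw [e2, div_mul_eq_mul_div, div_le_div_iff₀ (by positivity) (by positivity)]
      have : μ * ∑ σ ∈ s, ‖N σ‖ ^ 2 ≤ μ * c := mul_le_mul_of_nonneg_left hc hμ
      nlinarith [sq_pos_of_pos hω]
    · rw [e2] at ht; nlinarith [sq_pos_of_pos hω]
  · have h2 : m * y ^ 2 ≤ y * L := by
      by_contra h2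
      push Not at h h2
      have h3 : 0 ≤ y * L := by positivity
      have h4 : (y * L) * (y * L) < (2 * μ * c) * (m * y ^ 2) := mul_lt_mul'' h h2 h3 h3
      have h5 : 0 ≤ μ * c * m * y ^ 2 := by positivity
      nlinarith [sq_nonneg y]
    have hρ : 0 < ω / y := by positivity
    refine (check_b s b N hρ).mono ?_ fun t ht => ?_
    · rw [div_pow, div_div_eq_mul_div, div_mul_eq_mul_div]
      exact div_le_div_of_nonneg_right h2 (by positivity)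
    · refine ht.trans ?_
      calc (ω / y) ^ 2 * ∑ σ ∈ s, ‖N σ‖ ^ 2 ≤ (ω / y) ^ 2 * (S * y ^ 2) :=
            mul_le_mul_of_nonneg_left (hc.trans hcy) (by positivity)
        _ = ω ^ 2 * S := by field_simp

end Vale.Agent.P262
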