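import Mathlib

/-! Transfer from signed prefixes to rearrangements. -/

namespace Vale.Agent.P262

open Finset

variable {G : Type*} [NormedAddCommGroup G] [NormedSpace ℝ G]

theorem chob_key {N : ℕ} (w : Fin N → G) (hw : ∑ i, w i = 0) (ε : Fin N → ℝ)
    (hε : ∀ i, ε i = 1 ∨ ε i = -1) {B β : ℝ}
    (h1 : ∀ k : ℕ, ‖∑ i : Fin N with i.val < k, ε i • w i‖ ≤ B)
    (h2 : ∀ k : ℕ, ‖∑ i : Fin N with i.val < k, w i‖ ≤ β) :
    ∃ ρ : Equiv.Perm (Fin N), ∀ k : ℕ, ‖∑ i : Fin N with i.val < k, w (ρ i)‖ ≤ (β + B) / 2 := by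
  classical
  let key : Fin N → ℕ := fun i => if ε i = 1 then i else 2 * N - i
  have kinj : Function.Injective key := fun i j h => by
    have := i.2; have := j.2
    simp only [key] at h
    apply Fin.ext
    split_ifs at h <;> omega
  have hc : ∀ c : ℕ, ‖∑ j : Fin N with key j < c, w j‖ ≤ (β + B) / 2 := fun c => by
    by_cases h : c ≤ N
    · have : ∑ j : Fin N with key j < c, w j = (1 / 2 : ℝ) • (∑ i : Fin N with i.val < c, w i
          + ∑ i : Fin N with i.val < c, ε i • w i) := by
        simp only [Finset.sum_filter, ← Finset.sum_add_distrib, Finset.smul_sum]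
        refine Finset.sum_congr rfl fun j _ => ?_
        have := j.2
        rcases hε j with e | e
        · simp only [key, e, if_true]
          split_ifs
          · module
          · simp
        · simp only [key, e, if_neg (show (-1 : ℝ) ≠ 1 by norm_num)]
          rw [if_neg (by omega)]
          split_ifs <;> simp
      rw [this, norm_smul, Real.norm_of_nonneg (by norm_num)]
      linarith [norm_add_le (∑ i : Fin N with i.val < c, w i)
        (∑ i : Fin N with i.val < c, ε i • w i), h1 c, h2 c]
    · have : ∑ j : Fin N with key j < c, w j = ∑ i, w i - (1 / 2 : ℝ) •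
          (∑ i : Fin N with i.val < 2 * N + 1 - c, w i
            - ∑ i : Fin N with i.val < 2 * N + 1 - c, ε i • w i) := by
        simp only [Finset.sum_filter, ← Finset.sum_sub_distrib, Finset.smul_sum]
        refine Finset.sum_congr rfl fun j _ => ?_
        have := j.2
        rcases hε j with e | e
        · simp only [key, e, if_true]
          rw [if_pos (by omega)]
          split_ifs <;> simp
        · simp only [key, e, if_neg (show (-1 : ℝ) ≠ 1 by norm_num)]
          split_ifs
          · omega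
          · simp
          · module
          · omega
      rw [this, hw, zero_sub, norm_neg, norm_smul, Real.norm_of_nonneg (by norm_num)]
      linarith [norm_sub_le (∑ i : Fin N with i.val < 2 * N + 1 - c, w i)
        (∑ i : Fin N with i.val < 2 * N + 1 - c, ε i • w i), h1 (2 * N + 1 - c),
        h2 (2 * N + 1 - c)]
  have hs : StrictMono (key ∘ Tuple.sort key) :=
    (Tuple.monotone_sort key).strictMono_of_injective (kinj.comp (Tuple.sort key).injective)
  refine ⟨Tuple.sort key, fun k => ?_⟩
  obtain ⟨c, hk⟩ : ∃ c, ∀ i : Fin N, (i : ℕ) < k ↔ key (Tuple.sort key i) < c := by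
    by_cases h : k < N
    · exact ⟨key (Tuple.sort key ⟨k, h⟩), fun i => (hs.lt_iff_lt (a := i) (b := ⟨k, h⟩)).symm⟩
    · refine ⟨2 * N + 1, fun i => ?_⟩
      have := i.2
      have := (Tuple.sort key i).2
      simp only [key]
      split_ifs <;> omega
  have := hc c
  simp only [Finset.sum_filter, hk] at this ⊢
  rwa [← Equiv.sum_comp (Tuple.sort key)] at this

theorem chob {N : ℕ} (v : Fin N → G) (hv : ∑ i, v i = 0) {B : ℝ}
    (h : ∀ π : Equiv.Perm (Fin N), ∃ ε : Fin N → ℝ, (∀ i, ε i = 1 ∨ ε i = -1) ∧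
      ∀ k : ℕ, ‖∑ i : Fin N with i.val < k, ε i • v (π i)‖ ≤ B) :
    ∃ π : Equiv.Perm (Fin N), ∀ k : ℕ, ‖∑ i : Fin N with i.val < k, v (π i)‖ ≤ B := by
  let f : Equiv.Perm (Fin N) → ℕ → ℝ := fun π k => ‖∑ i : Fin N with i.val < k, v (π i)‖
  let β : Equiv.Perm (Fin N) → ℝ := fun π => (range (N + 1)).sup' nonempty_range_add_one (f π)
  have hβ : ∀ π k, f π k ≤ β π := fun π k => by
    by_cases hk : k ≤ N
    · exact Finset.le_sup' (f π) (mem_range.2 (by omega))
    · have : f π k = f π N := by
        simp only [f]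
        congr 2
        ext i
        have := i.2
        simp only [mem_filter, mem_univ, true_and]; omega
      rw [this]
      exact Finset.le_sup' (f π) (mem_range.2 (by omega))
  obtain ⟨π, -, hπ⟩ := Finset.exists_min_image univ β univ_nonempty
  obtain ⟨ε, e1, e2⟩ := h π
  obtain ⟨ρ, hρ⟩ := chob_key (fun i => v (π i)) (by rw [Equiv.sum_comp π v, hv]) ε e1 e2 (hβ π)
  have h1 : β (π * ρ) ≤ (β π + B) / 2 := Finset.sup'_le _ _ fun k _ => hρ k
  have h2 := hπ (π * ρ) (mem_univ _)
  exact ⟨π, fun k => (hβ π k).trans (by linarith)⟩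

end Vale.Agent.P262
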