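import Vale.Agent.P262.Event

/-! The cut transition. -/

namespace Vale.Agent.P262

open scoped InnerProductSpace
open Finset

variable {E : Type*} [NormedAddCommGroup E] [InnerProductSpace ℝ E]

/-- the removed direction at level `i` -/
noncomputable def cta (P : St E) (m : ℕ) (δ : E) (i : ℕ) : E := if i ≤ m then nz (P i δ) else 0

/-- state after a cut -/
noncomputable def ctP (P : St E) (m : ℕ) (δ : E) : St E := fun i => P i - rk (cta P m δ i)

open Classical in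
/-- the refreshed direction of slot `j` -/
noncomputable def ctf (P : St E) (m : ℕ) (δ : E) (j : ℕ) : E :=
  if j < m ∧ 1 / 2 ≤ ‖P j δ‖ ^ 2 then 0 else nz (sl (ctP P m δ) j (cta P m δ j))

/-- data of a cut -/
noncomputable def ctD (P : St E) (m : ℕ) (δ : E) : Dat E :=
  ⟨cta P m δ, 0, 0, 0, fun j => sl (ctP P m δ) j - rk (ctf P m δ j), ctf P m δ,
    fun j => if j < m then 2 * ‖δ - P j δ‖ ^ 2 else if j = m then 1 else 0⟩

variable {A : E →ₗ[ℝ] E} {μ : ℕ → ℝ} {J m : ℕ} {P : St E} {δ : E}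

theorem smul_nz (v : E) : ‖v‖ • nz v = v := by
  by_cases h : v = 0
  · simp [h]
  · rw [nz, smul_smul, mul_inv_cancel₀ (norm_ne_zero_iff.2 h), one_smul]

theorem cta_mem (hF : Flag P) (i : ℕ) : P i (cta P m δ i) = cta P m δ i := by
  unfold cta; split_ifs
  · rw [nz, map_smul, (hF.isP i).idem]
  · simp

theorem cta_uz (i : ℕ) : UZ (cta P m δ i) := by
  unfold cta; split_ifs
  · exact nz_uz _
  · exact UZ.zero

theorem cta_par (hF : Flag P) {i j : ℕ} (hij : i ≤ j) :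
    P i (cta P m δ j) = ⟪cta P m δ i, cta P m δ j⟫_ℝ • cta P m δ i := by
  by_cases h : j ≤ m
  · simp only [cta, if_pos h, if_pos (hij.trans h)]
    have : ⟪P i δ, P j δ⟫_ℝ = ‖P i δ‖ ^ 2 := by
      rw [(hF.isP i).symm, hF.nest' hij, (hF.isP i).inner_self]
    rw [nz.eq_1 (P j δ), map_smul, hF.nest' hij, inner_smul_right, mul_smul, nz_proj this]
  · simp [cta, h]

theorem ct_isP (hF : Flag P) (i : ℕ) : IsP (ctP P m δ i) :=
  (hF.isP i).sub_rk (cta_mem hF i) (cta_uz i)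

theorem ct_le (hF : Flag P) (i : ℕ) (x : E) : P i (ctP P m δ i x) = ctP P m δ i x := by
  simp only [ctP, LinearMap.sub_apply, rk_apply, map_sub, map_smul, (hF.isP i).idem, cta_mem hF]

theorem ct_sub (hF : Flag P) {i : ℕ} {x : E} (hx : ctP P m δ i x = x) : P i x = x := by
  rw [← hx, ct_le hF]

theorem ct_flag (hF : Flag P) : Flag (ctP P m δ) := by
  refine ⟨ct_isP hF, ?_, fun i j hij x => ?_⟩
  · simp [ctP, cta, hF.zero, nz, rk_zero]
  · have h1 : ⟪cta P m δ j, ctP P m δ i x⟫_ℝ = 0 := by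
      rw [ctP, LinearMap.sub_apply, rk_apply, inner_sub_right, inner_smul_right,
        ← (hF.isP i).symm, cta_par hF hij, inner_smul_left, conj_trivial,
        real_inner_comm (cta P m δ i)]
      ring
    rw [ctP, LinearMap.sub_apply, rk_apply, h1, hF.up hij (ct_le hF i x)]; simp

theorem ct_kill (hF : Flag P) {i : ℕ} (hi : i ≤ m) : ctP P m δ i δ = 0 := by
  rw [ctP, LinearMap.sub_apply, rk_apply, cta, if_pos hi, nz_proj, sub_self]
  rw [real_inner_comm, (hF.isP i).inner_self]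

theorem ct_high {i : ℕ} (hi : m < i) : ctP P m δ i = P i := by
  rw [ctP, cta, if_neg (by omega), rk_zero, sub_zero]

theorem ct_top (hδ : P m δ = δ) (h1 : ⟪δ, δ⟫_ℝ = 1) : ctP P m δ m = P m - rk δ := by
  rw [ctP, cta, if_pos le_rfl, hδ, nz_unit h1]

theorem ct_ker (hF : Flag P) {i : ℕ} {x : E} (hx : P i x = 0) : ctP P m δ i x = 0 := by
  rw [ctP, LinearMap.sub_apply, rk_apply, hx, real_inner_comm,
    (hF.isP i).orth hx (cta_mem hF i)]
  simp

theorem ct_up (hF : Flag P) {c : ℝ} (hU : Up A μ c P) : Up A μ c (ctP P m δ) :=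
  fun i x hx => hU i x (ct_sub hF hx)

theorem IsP.sq_sub {Q : E →ₗ[ℝ] E} (h : IsP Q) (x : E) :
    ‖x - Q x‖ ^ 2 = ‖x‖ ^ 2 - ‖Q x‖ ^ 2 := by
  rw [norm_sub_sq_real, h.inner_self]; ring

theorem cta_sq (hF : Flag P) (j : ℕ) :
    ‖cta P m δ j‖ ^ 2 - ‖cta P m δ (j + 1)‖ ^ 2 ≤ if j = m then 1 else 0 := by
  split_ifs with h
  · linarith [(cta_uz (P := P) (m := m) (δ := δ) j).sq_le, sq_nonneg ‖cta P m δ (j + 1)‖]
  · by_cases h2 : j < m
    · simp only [cta, if_pos h2.le, if_pos (show j + 1 ≤ m from h2)]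
      by_cases h3 : P (j + 1) δ = 0
      · simp [hF.down (Nat.le_succ j) h3, nz]
      · rw [nz_sq h3]; linarith [(nz_uz (P j δ)).sq_le]
    · simp only [cta]
      rw [if_neg (by omega), if_neg (by omega)]; simp

theorem nz_small {v w : E} (hv : 1 / 2 ≤ ‖v‖ ^ 2) : ‖‖v‖⁻¹ • w‖ ^ 2 ≤ 2 * ‖w‖ ^ 2 := by
  rw [norm_smul, mul_pow, norm_inv, norm_norm, inv_pow]
  refine mul_le_mul_of_nonneg_right ?_ (by positivity)
  rw [inv_le_comm₀ (by linarith) two_pos]; linarith

variable [FiniteDimensional ℝ E]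

theorem ct_tr (j : ℕ) : tr (sl (ctP P m δ) j) =
    tr (sl P j) + (‖cta P m δ j‖ ^ 2 - ‖cta P m δ (j + 1)‖ ^ 2) := by
  simp only [tr_sl, ctP, tr_sub_rk]; ring

theorem ct_good (hμ : ∀ j, 0 < μ j) (hF : Flag P) (h1 : ⟪δ, δ⟫_ℝ = 1) (hm : m ≤ J)
    (hU : Up A μ 2 P) : Good A μ J P (ctD P m δ) (ctP P m δ) := by
  have n1 : ‖δ‖ ^ 2 = 1 := by rw [← real_inner_self_eq_norm_sq, h1]
  have hF' := ct_flag (m := m) (δ := δ) hF
  have k0 : ∀ i, 0 ≤ (ctD P m δ).κ i := fun i => by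
    simp only [ctD]; split_ifs <;> positivity
  have fs : ∀ j, sl (ctP P m δ) j (ctf P m δ j) = ctf P m δ j := fun j => by
    unfold ctf; split_ifs
    · simp
    · rw [nz, map_smul, (hF'.sl j).idem]
  have fu : ∀ j, UZ (ctf P m δ j) := fun j => by
    unfold ctf; split_ifs
    · exact UZ.zero
    · exact nz_uz _
  have kb : ∀ j, j ≤ m → ¬ (j < m ∧ 1 / 2 ≤ ‖P j δ‖ ^ 2) → 1 ≤ (ctD P m δ).κ j := fun j h h' => by
    simp only [ctD]; split_ifs with h2 h3
    · rw [(hF.isP j).sq_sub, n1]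
      have : ¬ (1 / 2 ≤ ‖P j δ‖ ^ 2) := fun h => h' ⟨h2, h⟩
      linarith [not_le.1 this]
    · exact le_rfl
    · omega
  have fk : ∀ j, ‖ctf P m δ j‖ ^ 2 ≤ (ctD P m δ).κ j := fun j => by
    by_cases h : j < m ∧ 1 / 2 ≤ ‖P j δ‖ ^ 2
    · simpa [ctf, -one_div, h] using k0 j
    · by_cases h2 : j ≤ m
      · exact (fu j).sq_le.trans (kb j h2 h)
      · simpa [ctf, cta, h2, nz] using k0 j
  have N0 : ∀ j, ¬ (j < m ∧ 1 / 2 ≤ ‖P j δ‖ ^ 2) →
      (sl (ctP P m δ) j - rk (ctf P m δ j)) (cta P m δ j) = 0 := fun j h => by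
    rw [LinearMap.sub_apply, rk_apply, ctf, if_neg h, nz_proj, sub_self]
    rw [real_inner_comm, (hF'.sl j).inner_self]
  refine ⟨fun i x => by by_cases h : 0 < i <;> simp [ctP, ctD, Dat.β, h], cta_mem hF, cta_uz,
    by simp only [ctD, cta]; rw [if_neg (by omega)], fun i => by simp [ctD], UZ.zero,
    ⟨μ 0, le_rfl, by simp [ctD]⟩, fun i => by simp [ctD], fun i => by simp [ctD],
    fun i => UZ.zero, fun i => by simpa [ctD] using k0 i, fun i => ?_,
    fun j => (hF'.sl j).sub_rk (fs j) (fu j), fun j x => ?_, fun j x => by simp [ctD],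
    fun j => sub_rk_self (fs j) (fu j), fu, fk, fun j => ?_, fun j => ?_, fun j => ?_,
    fun i j h => cta_par hF h, fun i j hij h => ?_⟩
  · have := k0 i; have := hμ i
    have e : (ctD P m δ).γ i = 0 := rfl
    rw [e, qf_zero]; positivity
  · refine ct_sub (m := m) (δ := δ) hF (hF'.sl_top ?_)
    simp only [ctD, LinearMap.sub_apply, rk_apply, map_sub, map_smul, (hF'.sl j).idem, fs]
  · refine (hU j _ (ct_sub hF (hF'.sl_top (fs j)))).trans ?_
    exact mul_le_mul_of_nonneg_left (fk j) (by linarith [hμ j])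
  · by_cases h : j < m ∧ 1 / 2 ≤ ‖P j δ‖ ^ 2
    · have e1 : (ctD P m δ).T j ((ctD P m δ).a j)
          = ‖P j δ‖⁻¹ • ctP P m δ (j + 1) (P j δ - δ) := by
        have e2 : ctP P m δ j (cta P m δ j) = 0 := sub_rk_self (cta_mem hF j) (cta_uz j)
        simp only [ctD, ctf, if_pos h, rk_zero, sub_zero, sl_apply, e2]
        rw [map_sub, ct_kill hF (show j + 1 ≤ m from h.1), sub_zero, cta, if_pos h.1.le, nz,
          map_smul]
      rw [e1]
      refine (nz_small h.2).trans ?_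
      simp only [ctD, if_pos h.1]
      rw [norm_sub_rev δ]
      linarith [(hF'.isP (j + 1)).sq_le (P j δ - δ)]
    · have e1 : (ctD P m δ).T j ((ctD P m δ).a j) = 0 := N0 j h
      rw [e1]; simpa using k0 j
  · rw [ct_tr, add_sub_cancel_left]
    by_cases h : j < m ∧ 1 / 2 ≤ ‖P j δ‖ ^ 2
    · have e1 : P j δ ≠ 0 := fun h0 => by
        have := h.2; rw [h0] at this; norm_num at this
      have e2 : P (j + 1) δ ≠ 0 := fun h0 => e1 (hF.down (Nat.le_succ j) h0)
      simp only [cta, if_pos h.1.le, if_pos (show j + 1 ≤ m from h.1), nz_sq e1, nz_sq e2]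
      simpa using k0 j
    · by_cases h2 : j ≤ m
      · refine le_trans ?_ (kb j h2 h)
        rw [abs_le]
        constructor <;> linarith [(cta_uz (P := P) (m := m) (δ := δ) j).sq_le,
          (cta_uz (P := P) (m := m) (δ := δ) (j + 1)).sq_le, sq_nonneg ‖cta P m δ (j + 1)‖,
          sq_nonneg ‖cta P m δ j‖]
      · simp only [cta]
        rw [if_neg (by omega), if_neg (by omega)]; simpa using k0 j
  · have h2 : j < m ∧ 1 / 2 ≤ ‖P j δ‖ ^ 2 := by
      by_contra h2; exact h (N0 j h2)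
    have e1 : (ctD P m δ).a j - P i ((ctD P m δ).a j) = ‖P j δ‖⁻¹ • P j (δ - P i δ) := by
      simp only [ctD, cta, if_pos h2.1.le, nz, map_smul, map_sub, smul_sub, hF.nest i j hij,
        hF.nest' hij]
    rw [e1]
    refine (nz_small h2.2).trans ?_
    simp only [ctD, if_pos (show i < m by omega)]
    linarith [(hF.isP j).sq_le (δ - P i δ)]

theorem ct_pot (hA : A.IsSymmetric) (hμ : ∀ j, 0 < μ j) (hF : Flag P) (h1 : ⟪δ, δ⟫_ℝ = 1) :
    pot A μ J (ctP P m δ) ≤ pot A μ J P + (if m < J then μ m else 0)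
      - 4 * ∑ j ∈ range J, if j < m then ‖P (j + 1) (A (P (j + 1) δ))‖ ^ 2 / μ j else 0 := by
  have n1 : ‖δ‖ ^ 2 = 1 := by rw [← real_inner_self_eq_norm_sq, h1]
  have key : ∀ j, μ j * tr (sl (ctP P m δ) j) + 4 * (hs A (ctP P m δ (j + 1)) / μ j) ≤
      μ j * tr (sl P j) + 4 * (hs A (P (j + 1)) / μ j) + (if j = m then μ j else 0)
        - 4 * (if j < m then ‖P (j + 1) (A (P (j + 1) δ))‖ ^ 2 / μ j else 0) := fun j => by
    have hm := hμ j
    have a1 := mul_le_mul_of_nonneg_left (cta_sq (m := m) (δ := δ) hF j) hm.le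
    have a2 := hs_upd hA (ct_isP (m := m) (δ := δ) hF (j + 1))
      (sub_rk_self (cta_mem hF (j + 1)) (cta_uz (j + 1))) (cta_uz (j + 1))
    rw [ctP, sub_add_cancel, ← ctP] at a2
    have a3 : (if j < m then ‖P (j + 1) (A (P (j + 1) δ))‖ ^ 2 / μ j else 0) ≤
        ‖P (j + 1) (A (cta P m δ (j + 1)))‖ ^ 2 / μ j := by
      split_ifs with h
      · refine div_le_div_of_nonneg_right ?_ hm.le
        rw [cta, if_pos (show j + 1 ≤ m from h)]
        conv_lhs => rw [← smul_nz (P (j + 1) δ), map_smul, map_smul, norm_smul, mul_pow, norm_norm]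
        exact mul_le_of_le_one_left (by positivity) (n1 ▸ (hF.isP _).sq_le δ)
      · positivity
    have a4 : 0 ≤ ‖ctP P m δ (j + 1) (A (cta P m δ (j + 1)))‖ ^ 2 / μ j := by positivity
    rw [ct_tr, a2, add_div, add_div]
    rw [mul_ite, mul_one, mul_zero] at a1
    linarith
  refine (Finset.sum_le_sum fun i _ => key i).trans (le_of_eq ?_)
  rw [Finset.sum_sub_distrib, Finset.sum_add_distrib, Finset.sum_ite_eq', ← Finset.mul_sum, pot]
  simp only [mem_range]

end Vale.Agent.P262
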