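import Vale.Agent.P262.KL

/-! Densities on shift systems: base case and the partition of unity. -/

namespace Vale.Agent.P262

open Function Finset

theorem fs_prod {X Y : Type*} {F : X → ℝ} {H : Y → ℝ} (hF : HasFiniteSupport F)
    (hH : HasFiniteSupport H) : HasFiniteSupport fun p : X × Y => F p.1 * H p.2 :=
  (Set.Finite.prod hF hH).subset fun _ hp => ⟨left_ne_zero_of_mul hp, right_ne_zero_of_mul hp⟩

theorem finsum_prod_mul {X Y : Type*} {F : X → ℝ} {H : Y → ℝ} (hF : HasFiniteSupport F)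
    (hH : HasFiniteSupport H) : ∑ᶠ p : X × Y, F p.1 * H p.2 = (∑ᶠ x, F x) * ∑ᶠ y, H y := by
  rw [finsum_curry _ (fs_prod hF hH), finsum_mul]
  exact finsum_congr fun x => (mul_finsum H (F x)).symm

variable {V : Type} [AddCommGroup V] [Module ℝ V]

/-- a normalised density with energies at most `e` -/
structure Core (n : ℕ) (u : ℕ → V) {X : Type} (sh : ℕ → Equiv.Perm X) (pos : X → V) (ψ : X → ℝ)
    (e : ℕ → ℝ) : Prop where
  comm : ∀ i < n, ∀ j < n, ∀ x, sh i (sh j x) = sh j (sh i x)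
  hp : ∀ i < n, ∀ x, pos (sh i x) = pos x + (4 : ℝ) • u i
  h0 : ∀ x, 0 ≤ ψ x
  hf : HasFiniteSupport ψ
  h1 : ∑ᶠ x, ψ x ^ 2 = 1
  en : ∀ i < n, ∑ᶠ x, (ψ (sh i x) - ψ ((sh i).symm x)) ^ 2 ≤ e i

theorem exists_flat {ε : ℝ} (hε : 0 < ε) : ∃ h : ℤ → ℝ, (∀ k, 0 ≤ h k) ∧ HasFiniteSupport h ∧
    ∑ᶠ k, h k ^ 2 = 1 ∧ ∑ᶠ k, (h (k + 1) - h (k - 1)) ^ 2 ≤ ε := by
  obtain ⟨M, hM⟩ := exists_nat_gt (4 / ε + 1)
  have hM1 : (1 : ℝ) < M := by have : 0 < 4 / ε := by positivity
                               linarith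
  refine ⟨fun k => if k ∈ Ico (0 : ℤ) (M ^ 2) then 1 / M else 0, fun k => ?_, ?_, ?_, ?_⟩
  · beta_reduce; split_ifs <;> positivity
  · refine (Ico (0 : ℤ) (M ^ 2)).finite_toSet.subset fun k hk => ?_
    by_contra h
    exact hk (if_neg h)
  · rw [finsum_eq_sum_of_support_subset (s := Ico (0 : ℤ) (M ^ 2))]
    · rw [Finset.sum_congr rfl (g := fun _ => (1 / M : ℝ) ^ 2) fun k hk => by
        simp only [if_pos hk]]
      have : ((M : ℤ) ^ 2).toNat = M ^ 2 := by rw [← Nat.cast_pow, Int.toNat_natCast]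
      simp only [sum_const, Int.card_Ico, sub_zero, this, nsmul_eq_mul, Nat.cast_pow]
      field_simp
    · intro k hk
      by_contra h
      exact hk (by simp only [if_neg (show k ∉ Ico (0 : ℤ) (M ^ 2) from h)]; simp)
  · rw [finsum_eq_sum_of_support_subset (s := {-1, 0, (M : ℤ) ^ 2 - 1, (M : ℤ) ^ 2})]
    · refine (Finset.sum_le_card_nsmul _ _ ((1 / M : ℝ) ^ 2) fun k _ => ?_).trans ?_
      · beta_reduce; split_ifs <;> simp
      · rw [nsmul_eq_mul]
        have h4 : ((card {-1, 0, (M : ℤ) ^ 2 - 1, (M : ℤ) ^ 2} : ℕ) : ℝ) ≤ 4 := by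
          exact_mod_cast Finset.card_le_four
        refine (mul_le_mul_of_nonneg_right h4 (by positivity)).trans ?_
        have : 4 / ε < M := by linarith
        rw [div_lt_iff₀ hε] at this
        rw [div_pow, one_pow, mul_one_div, div_le_iff₀ (by positivity)]
        nlinarith
    · intro k hk
      by_contra h
      simp only [coe_insert, coe_singleton, Set.mem_insert_iff, Set.mem_singleton_iff,
        not_or] at h
      refine hk ?_
      simp only [mem_Ico]
      split_ifs with h1 h2 h2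
      · simp
      · omega
      · omega
      · simp

theorem exists_base (u : ℕ → V) {ε : ℝ} (hε : 0 < ε) (n : ℕ) :
    ∃ (X : Type) (sh : ℕ → Equiv.Perm X) (pos : X → V) (ψ : X → ℝ),
      Core n u sh pos ψ (fun _ => ε) := by
  obtain ⟨h, g0, gf, g1, g2⟩ := exists_flat hε
  induction n with
  | zero => exact ⟨ℤ, fun _ => 1, 0, h, by simp, by simp, g0, gf, g1, by simp⟩
  | succ n ih =>
    obtain ⟨X, sh, pos, ψ, c⟩ := ih
    have f1 : HasFiniteSupport fun x => ψ x ^ 2 := fs1 c.hf (by simp +contextual)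
    have f2 : HasFiniteSupport fun x => h x ^ 2 := fs1 gf (by simp +contextual)
    refine ⟨X × ℤ, fun i => if i = n then Equiv.prodCongr (Equiv.refl X) (Equiv.addRight 1)
      else Equiv.prodCongr (sh i) (Equiv.refl ℤ), fun p => pos p.1 + (4 * p.2 : ℝ) • u n,
      fun p => ψ p.1 * h p.2, fun i hi j hj x => ?_, fun i hi x => ?_,
      fun p => mul_nonneg (c.h0 _) (g0 _), fs_prod c.hf gf, ?_, fun i hi => ?_⟩
    · by_cases h1 : i = n <;> by_cases h2 : j = n
      · simp [h1, h2]
      · simp [h1, h2, Prod.map]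
      · simp [h1, h2, Prod.map]
      · simp [h1, h2, Prod.map, c.comm i (by omega) j (by omega)]
    · by_cases h1 : i = n
      · simp only [h1, if_true, Equiv.prodCongr_apply, Prod.map, Equiv.coe_refl, id,
          Equiv.coe_addRight]
        push_cast; module
      · simp only [h1, if_false, Equiv.prodCongr_apply, Prod.map, Equiv.coe_refl, id,
          c.hp i (by omega)]
        abel
    · simp only [mul_pow]
      rw [finsum_prod_mul f1 f2, c.h1, g1, mul_one]
    · by_cases h1 : i = n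
      · simp only [h1, if_true, Equiv.prodCongr_apply, Equiv.prodCongr_symm, Prod.map,
          Equiv.refl_symm, Equiv.coe_refl, id, Equiv.coe_addRight, Equiv.addRight_symm,
          ← sub_eq_add_neg, ← mul_sub, mul_pow]
        rw [finsum_prod_mul f1 (H := fun k => (h (k + 1) - h (k - 1)) ^ 2)
          (fs2 (fs_equiv gf (Equiv.addRight 1)) (fs_equiv gf (Equiv.subRight 1))
            (by simp +contextual)), c.h1, one_mul]
        exact g2
      · simp only [h1, if_false, Equiv.prodCongr_apply, Equiv.prodCongr_symm, Prod.map,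
          Equiv.refl_symm, Equiv.coe_refl, id, ← sub_mul, mul_pow]
        rw [finsum_prod_mul (F := fun x => (ψ (sh i x) - ψ ((sh i).symm x)) ^ 2)
          (fs2 (fs_equiv c.hf (sh i)) (fs_equiv c.hf (sh i).symm) (by simp +contextual)) f2,
          g1, mul_one]
        exact c.en i (by omega)

/-- bump function -/
noncomputable def bump (z : ℝ) : ℝ := Real.cos (Real.pi / 2 * max (-1) (min 1 z))

theorem bump_nonneg (z : ℝ) : 0 ≤ bump z := by
  have h1 : -1 ≤ max (-1) (min 1 z) := le_max_left _ _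
  have h2 : max (-1) (min 1 z) ≤ 1 := max_le (by norm_num) (min_le_left _ _)
  refine Real.cos_nonneg_of_neg_pi_div_two_le_of_le ?_ ?_ <;> nlinarith [Real.pi_pos]

theorem bump_ne {z : ℝ} (h : bump z ≠ 0) : |z| < 1 := by
  rw [abs_lt]
  constructor
  · by_contra h1
    refine h ?_
    rw [bump, min_eq_right (by linarith), max_eq_left (by linarith)]; simp
  · by_contra h1
    refine h ?_
    rw [bump, min_eq_left (by linarith), max_eq_right (by norm_num)]; simp

theorem bump_lip (z w : ℝ) : (bump z - bump w) ^ 2 ≤ 4 * (z - w) ^ 2 := by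
  have h1 := Real.abs_cos_sub_cos_le (Real.pi / 2 * max (-1) (min 1 z))
    (Real.pi / 2 * max (-1) (min 1 w))
  have h2 : |max (-1) (min 1 z) - max (-1) (min 1 w)| ≤ |z - w| := by
    rw [max_comm, max_comm (-1), min_comm, min_comm 1]
    refine (abs_max_sub_max_le_abs _ _ _).trans ?_
    simpa using abs_min_sub_min_le_max z 1 w 1
  rw [← mul_sub, abs_mul, abs_of_pos (by positivity : 0 < Real.pi / 2)] at h1
  have h3 : |bump z - bump w| ≤ 2 * |z - w| :=
    h1.trans (mul_le_mul (by linarith [Real.pi_le_four]) h2 (abs_nonneg _) (by norm_num))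
  have := pow_le_pow_left₀ (abs_nonneg _) h3 2
  rw [mul_pow, sq_abs, sq_abs] at this
  linarith

theorem bump_supp {y : ℝ} {m : ℤ} (h : bump (y - m) ≠ 0) : m = ⌊y⌋ ∨ m = ⌊y⌋ + 1 := by
  have h1 := abs_lt.1 (bump_ne h)
  have h2 : m - 1 ≤ ⌊y⌋ := Int.le_floor.2 (by push_cast; linarith)
  have h3 : ⌊y⌋ < m + 1 := Int.floor_lt.2 (by push_cast; linarith)
  omega

theorem bump_fs (y : ℝ) : HasFiniteSupport fun m : ℤ => bump (y - m) :=
  (Set.toFinite {⌊y⌋, ⌊y⌋ + 1}).subset fun _ hm => bump_supp hm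

theorem bump_sum (y : ℝ) : ∑ᶠ m : ℤ, bump (y - m) ^ 2 = 1 := by
  rw [finsum_eq_sum_of_support_subset (s := {⌊y⌋, ⌊y⌋ + 1}), Finset.sum_pair (by omega)]
  · have h1 := Int.floor_le y
    have h2 := Int.lt_floor_add_one y
    simp only [bump]
    push_cast
    rw [min_eq_right (by linarith), max_eq_right (by linarith), min_eq_right (by linarith),
      max_eq_right (by linarith)]
    have : Real.pi / 2 * (y - (⌊y⌋ + 1)) = Real.pi / 2 * (y - ⌊y⌋) - Real.pi / 2 := by ring
    rw [this, Real.cos_sub_pi_div_two, Real.cos_sq_add_sin_sq]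
  · intro m hm
    simpa using bump_supp (y := y) (m := m) fun h => hm (by simp [h])

theorem bump_diff (y y' : ℝ) :
    ∑ᶠ m : ℤ, (bump (y - m) - bump (y' - m)) ^ 2 ≤ 16 * (y - y') ^ 2 := by
  rw [finsum_eq_sum_of_support_subset (s := {⌊y⌋, ⌊y⌋ + 1, ⌊y'⌋, ⌊y'⌋ + 1})]
  · refine (Finset.sum_le_card_nsmul _ _ (4 * (y - y') ^ 2) fun k _ => ?_).trans ?_
    · simpa using bump_lip (y - k) (y' - k)
    · rw [nsmul_eq_mul]
      have h4 : ((card {⌊y⌋, ⌊y⌋ + 1, ⌊y'⌋, ⌊y'⌋ + 1} : ℕ) : ℝ) ≤ 4 := by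
        exact_mod_cast Finset.card_le_four
      nlinarith [sq_nonneg (y - y')]
  · intro m hm
    simp only [coe_insert, coe_singleton, Set.mem_insert_iff, Set.mem_singleton_iff]
    by_cases h : bump (y - m) = 0
    · have : bump (y' - m) ≠ 0 := fun h' => hm (by simp [h, h'])
      have := bump_supp this
      tauto
    · have := bump_supp h
      tauto

end Vale.Agent.P262
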