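import Vale.Agent.P262.Dens1

/-! Localisation, recentering, mixtures and the minimax step. -/

namespace Vale.Agent.P262

open Function Finset

variable {V : Type} [AddCommGroup V] [Module ℝ V] {n : ℕ} {u : ℕ → V}

theorem Core.mono {X : Type} {sh : ℕ → Equiv.Perm X} {pos : X → V} {ψ : X → ℝ} {e e' : ℕ → ℝ}
    (c : Core n u sh pos ψ e) (h : ∀ i < n, e i ≤ e' i) : Core n u sh pos ψ e' :=
  ⟨c.comm, c.hp, c.h0, c.hf, c.h1, fun i hi => (c.en i hi).trans (h i hi)⟩

theorem Core.en0 {X : Type} {sh : ℕ → Equiv.Perm X} {pos : X → V} {ψ : X → ℝ} {e : ℕ → ℝ}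
    (c : Core n u sh pos ψ e) {i : ℕ} (hi : i < n) : 0 ≤ e i :=
  (finsum_nonneg fun _ => sq_nonneg _).trans (c.en i hi)

theorem Core.localize {X : Type} {sh : ℕ → Equiv.Perm X} {pos : X → V} {ψ : X → ℝ} {e : ℕ → ℝ}
    (c : Core n u sh pos ψ e) (φ : V →ₗ[ℝ] ℝ) :
    Core n u (X := X × ℤ) (fun i => Equiv.prodCongr (sh i) (Equiv.refl ℤ)) (fun p => pos p.1)
      (fun p => bump (φ (pos p.1) - p.2) * ψ p.1) (fun i => e i + 1024 * φ (u i) ^ 2) := by
  have hf : HasFiniteSupport fun p : X × ℤ => bump (φ (pos p.1) - p.2) * ψ p.1 := by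
    refine (Set.Finite.biUnion c.hf (t := fun x => (fun m : ℤ => (x, m)) ''
      support fun m : ℤ => bump (φ (pos x) - m)) fun x _ => (bump_fs _).image _).subset ?_
    rintro ⟨x, m⟩ hp
    exact Set.mem_biUnion (right_ne_zero_of_mul hp) ⟨m, left_ne_zero_of_mul hp, rfl⟩
  refine ⟨fun i hi j hj x => by simp [Prod.map, c.comm i hi j hj],
    fun i hi x => by simp [c.hp i hi], fun p => mul_nonneg (bump_nonneg _) (c.h0 _), hf, ?_,
    fun i hi => ?_⟩
  · rw [finsum_curry _ (fs1 hf (by simp +contextual [-mul_eq_zero])), ← c.h1]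
    refine finsum_congr fun x => ?_
    simp only [mul_pow]
    rw [← finsum_mul, bump_sum, one_mul]
  · rw [finsum_curry _ (fs2 (fs_equiv hf (Equiv.prodCongr (sh i) (Equiv.refl ℤ)))
      (fs_equiv hf (Equiv.prodCongr (sh i) (Equiv.refl ℤ)).symm)
      (fun x h1 h2 => by rw [h1, h2]; simp))]
    have fa := fs_equiv c.hf (sh i)
    have fb := fs_equiv c.hf (sh i).symm
    have key : ∀ x, ∑ᶠ m : ℤ, (bump (φ (pos (sh i x)) - m) * ψ (sh i x) -
        bump (φ (pos ((sh i).symm x)) - m) * ψ ((sh i).symm x)) ^ 2 ≤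
        (ψ (sh i x) - ψ ((sh i).symm x)) ^ 2 +
          512 * φ (u i) ^ 2 * (ψ (sh i x) ^ 2 + ψ ((sh i).symm x) ^ 2) := fun x => by
      set A := ψ (sh i x)
      set B := ψ ((sh i).symm x)
      set y := φ (pos (sh i x)) with hy
      set y' := φ (pos ((sh i).symm x)) with hy'
      have e1 : y - y' = 8 * φ (u i) := by
        have h1 := c.hp i hi ((sh i).symm x)
        rw [Equiv.apply_symm_apply] at h1
        rw [hy, hy', c.hp i hi, h1]
        simp only [map_add, map_smul, smul_eq_mul]; ring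
      have e2 : ∀ m : ℤ, (bump (y - m) * A - bump (y' - m) * B) ^ 2 =
          A * B * (bump (y - m) - bump (y' - m)) ^ 2 + ((A ^ 2 - A * B) * bump (y - m) ^ 2
            + (B ^ 2 - A * B) * bump (y' - m) ^ 2) := fun m => by ring
      have g1 := bump_fs y
      have g2 := bump_fs y'
      simp only [e2]
      rw [finsum_add_distrib (fs2 g1 g2 (by simp +contextual)) (fs2 g1 g2 (by simp +contextual)),
        finsum_add_distrib (fs1 g1 (by simp +contextual)) (fs1 g2 (by simp +contextual)),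
        ← mul_finsum, ← mul_finsum, ← mul_finsum, bump_sum, bump_sum]
      have e3 := mul_le_mul_of_nonneg_left (bump_diff y y') (mul_nonneg (c.h0 (sh i x))
        (c.h0 ((sh i).symm x)))
      rw [e1] at e3
      nlinarith [mul_nonneg (sq_nonneg (φ (u i))) (sq_nonneg (A - B))]
    refine (finsum_le_finsum' (fs2 fa fb fun x h1 h2 => by simp [h1, h2])
      (fs2 fa fb (by simp +contextual)) key).trans ?_
    rw [finsum_add_distrib (fs2 fa fb (by simp +contextual)) (fs2 fa fb (by simp +contextual)),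
      ← mul_finsum,
      finsum_add_distrib (fs1 fa (by simp +contextual)) (fs1 fb (by simp +contextual)),
      finsum_comp_equiv (sh i) (f := fun x => ψ x ^ 2),
      finsum_comp_equiv (sh i).symm (f := fun x => ψ x ^ 2), c.h1]
    linarith [c.en i hi]

theorem exists_local (u : ℕ → V) {ε : ℝ} (hε : 0 < ε) (n : ℕ) (Φ : List (V →ₗ[ℝ] ℝ)) :
    ∃ (X : Type) (sh : ℕ → Equiv.Perm X) (pos : X → V) (ψ : X → ℝ) (lab : X → List ℤ),
      Core n u sh pos ψ (fun i => ε + 1024 * (Φ.map fun φ => φ (u i) ^ 2).sum) ∧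
      (∀ i x, lab (sh i x) = lab x) ∧
      ∀ x x', ψ x ≠ 0 → ψ x' ≠ 0 → lab x = lab x' → ∀ φ ∈ Φ, |φ (pos x - pos x')| ≤ 2 := by
  induction Φ with
  | nil =>
    obtain ⟨X, sh, pos, ψ, c⟩ := exists_base u hε n
    exact ⟨X, sh, pos, ψ, fun _ => [], by simpa using c, by simp, by simp⟩
  | cons φ Φ ih =>
    obtain ⟨X, sh, pos, ψ, lab, c, h1, h2⟩ := ih
    refine ⟨X × ℤ, _, _, _, fun p => p.2 :: lab p.1, (c.localize φ).mono fun i _ => ?_,
      fun i x => by simp [h1], fun x x' hx hx' hl φ' hφ => ?_⟩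
    · simp only [List.map_cons, List.sum_cons]; linarith
    · simp only [List.cons.injEq] at hl
      rcases List.mem_cons.1 hφ with rfl | hφ
      · have a1 := abs_lt.1 (bump_ne (left_ne_zero_of_mul hx))
        have a2 := abs_lt.1 (bump_ne (left_ne_zero_of_mul hx'))
        rw [hl.1] at a1
        rw [map_sub, abs_le]
        constructor <;> linarith [a1.1, a1.2, a2.1, a2.2]
      · exact h2 _ _ (right_ne_zero_of_mul hx) (right_ne_zero_of_mul hx') hl.2 φ' hφ

/-- achievable energy vectors for densities supported in `K` -/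
def Ach (n : ℕ) (u : ℕ → V) (K : Set V) (e : ℕ → ℝ) : Prop :=
  ∃ (X : Type) (sh : ℕ → Equiv.Perm X) (pos : X → V) (ψ : X → ℝ),
    Core n u sh pos ψ e ∧ ∀ x, ψ x ≠ 0 → pos x ∈ K

theorem ach_of_list (u : ℕ → V) {ε : ℝ} (hε : 0 < ε) (n : ℕ) (Φ : List (V →ₗ[ℝ] ℝ)) {K : Set V}
    (hK : ∀ y, (∀ φ ∈ Φ, |φ y| ≤ 2) → y ∈ K) :
    Ach n u K (fun i => ε + 1024 * (Φ.map fun φ => φ (u i) ^ 2).sum) := by
  classical
  obtain ⟨X, sh, pos, ψ, lab, c, h1, h2⟩ := exists_local u hε n Φ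
  let base : List ℤ → V := fun l => if h : ∃ x, ψ x ≠ 0 ∧ lab x = l then pos h.choose else 0
  refine ⟨X, sh, fun x => pos x - base (lab x), ψ,
    ⟨c.comm, fun i hi x => by rw [h1, c.hp i hi]; abel, c.h0, c.hf, c.h1, c.en⟩,
    fun x hx => hK _ ?_⟩
  have h : ∃ x', ψ x' ≠ 0 ∧ lab x' = lab x := ⟨x, hx, rfl⟩
  simp only [base, dif_pos h]
  exact h2 x _ hx h.choose_spec.1 h.choose_spec.2.symm

theorem Ach.mix {K : Set V} {e e' : ℕ → ℝ} (h : Ach n u K e) (h' : Ach n u K e') {a b : ℝ}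
    (ha : 0 ≤ a) (hb : 0 ≤ b) (hab : a + b = 1) : Ach n u K (fun i => a * e i + b * e' i) := by
  obtain ⟨X, sh, pos, ψ, c, hs⟩ := h
  obtain ⟨X', sh', pos', ψ', c', hs'⟩ := h'
  have f1 : HasFiniteSupport fun x => √a * ψ x := fs1 c.hf (by simp +contextual)
  have f2 : HasFiniteSupport fun x => √b * ψ' x := fs1 c'.hf (by simp +contextual)
  refine ⟨X ⊕ X', fun i => Equiv.sumCongr (sh i) (sh' i), Sum.elim pos pos',
    Sum.elim (fun x => √a * ψ x) (fun x => √b * ψ' x), ⟨fun i hi j hj x => ?_, fun i hi x => ?_,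
    fun x => ?_, fs_sum f1 f2, ?_, fun i hi => ?_⟩, fun x hx => ?_⟩
  · rcases x with x | x <;> simp [c.comm i hi j hj, c'.comm i hi j hj]
  · rcases x with x | x <;> simp [c.hp i hi, c'.hp i hi]
  · rcases x with x | x
    · exact mul_nonneg (Real.sqrt_nonneg _) (c.h0 _)
    · exact mul_nonneg (Real.sqrt_nonneg _) (c'.h0 _)
  · rw [finsum_sumType (fs1 c.hf (by simp +contextual)) (fs1 c'.hf (by simp +contextual))]
    simp only [Sum.elim_inl, Sum.elim_inr, mul_pow, ← mul_finsum, c.h1, c'.h1, Real.sq_sqrt ha,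
      Real.sq_sqrt hb]
    linarith
  · rw [finsum_sumType
      (fs2 (fs_equiv c.hf (sh i)) (fs_equiv c.hf (sh i).symm) (by simp +contextual))
      (fs2 (fs_equiv c'.hf (sh' i)) (fs_equiv c'.hf (sh' i).symm) (by simp +contextual))]
    simp only [Equiv.sumCongr_apply, Equiv.sumCongr_symm, Sum.map_inl, Sum.map_inr, Sum.elim_inl,
      Sum.elim_inr, ← mul_sub, mul_pow, ← mul_finsum, Real.sq_sqrt ha, Real.sq_sqrt hb]
    exact add_le_add (mul_le_mul_of_nonneg_left (c.en i hi) ha)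
      (mul_le_mul_of_nonneg_left (c'.en i hi) hb)
  · rcases x with x | x
    · exact hs x (right_ne_zero_of_mul hx)
    · exact hs' x (right_ne_zero_of_mul hx)

end Vale.Agent.P262
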