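import Vale.Agent.P262.Birth

/-! The event transition: a cheap vector moves one slot down. -/

namespace Vale.Agent.P262

open scoped InnerProductSpace
open Finset

variable {E : Type*} [NormedAddCommGroup E] [InnerProductSpace ℝ E]

/-- the moved vector at level `i` -/
def evg (u : E) (j i : ℕ) : E := if i = j + 1 then u else 0

/-- state after an event -/
noncomputable def evP (P : St E) (u : E) (j : ℕ) : St E := fun i => P i + rk (evg u j i)

/-- data of an event -/
noncomputable def evD (P : St E) (u : E) (j : ℕ) : Dat E :=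
  ⟨0, evg u j, 0, 0, fun i => sl P i - rk (evg u j i), fun i => evg u j (i + 1),
    fun i => if i = j ∨ i = j + 1 then 1 else 0⟩

variable {A : E →ₗ[ℝ] E} {μ : ℕ → ℝ} {J j : ℕ} {P : St E} {u : E}

theorem ev_sl (i : ℕ) : sl (evP P u j) i = sl P i - rk (evg u j i) + rk (evg u j (i + 1)) := by
  ext x
  simp only [sl_apply, evP, LinearMap.add_apply, LinearMap.sub_apply]; abel

theorem evg_sl (hu : sl P (j + 1) u = u) (i : ℕ) : sl P i (evg u j i) = evg u j i := by
  unfold evg; split_ifs with h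
  · rw [h, hu]
  · simp

theorem evg_uz (h1 : ⟪u, u⟫_ℝ = 1) (i : ℕ) : UZ (evg u j i) := ite_uz h1 _

theorem ev_flag (hF : Flag P) (hu : sl P (j + 1) u = u) (h1 : ⟪u, u⟫_ℝ = 1) :
    Flag (evP P u j) := by
  refine ⟨fun i => (hF.isP i).add_rk (hF.sl_bot (evg_sl hu i)) (evg_uz h1 _), ?_,
    fun i k hik x => ?_⟩
  · simp [evP, evg, hF.zero, rk_zero]
  · rcases eq_or_lt_of_le hik with rfl | hlt
    · exact ((hF.isP i).add_rk (hF.sl_bot (evg_sl hu i)) (evg_uz h1 _)).idem x
    · have h2 : P k (evP P u j i x) = evP P u j i x := by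
        simp only [evP, LinearMap.add_apply, rk_apply, map_add, map_smul, hF.nest i k hik,
          hF.up (show i + 1 ≤ k from hlt) (hF.sl_top (evg_sl hu i))]
      rw [evP, LinearMap.add_apply, rk_apply, h2, (hF.isP k).orth (hF.sl_bot (evg_sl hu k)) h2]
      simp

theorem qf_two (hA : A.IsSymmetric) (hA0 : ∀ x, 0 ≤ qf A x) (x y : E) :
    qf A (x + y) ≤ 2 * qf A x + 2 * qf A y := by
  have h := hA0 (x + (-1 : ℝ) • y)
  rw [qf_add hA, qf_smul, map_smul, inner_smul_right] at h
  rw [qf_add hA]; linarith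

theorem ev_up (hU : Up A μ 1 P) {i : ℕ} (hi : i ≠ j) (x : E) (hx : evP P u j (i + 1) x = x) :
    qf A x ≤ 1 * μ i * ‖x‖ ^ 2 := by
  refine hU i x ?_
  simpa [evP, evg, hi] using hx

theorem ev_weak (hA : A.IsSymmetric) (hA0 : ∀ x, 0 ≤ qf A x) (hμ : ∀ j, 0 < μ j) (hF : Flag P)
    (hu : sl P (j + 1) u = u) (h1 : ⟪u, u⟫_ℝ = 1) (hq : qf A u ≤ μ j / 16) (hU : Up A μ 1 P) :
    Up A μ 2 (evP P u j) := by
  intro i x hx
  by_cases hi : i = j
  · subst hi
    simp only [evP, evg, if_true, LinearMap.add_apply, rk_apply] at hx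
    have h2 := hU i _ ((hF.isP (i + 1)).idem x)
    have h3 := qf_two hA hA0 (P (i + 1) x) (⟪u, x⟫_ℝ • u)
    have h4 : ‖x‖ ^ 2 = ‖P (i + 1) x‖ ^ 2 + ⟪u, x⟫_ℝ ^ 2 := by
      conv_lhs => rw [← hx]
      rw [sq_add_of_orth, norm_smul, mul_pow, ← real_inner_self_eq_norm_sq u, h1,
        Real.norm_eq_abs, sq_abs, mul_one]
      rw [inner_smul_right, (hF.isP _).symm, hF.sl_bot hu]; simp
    rw [hx, qf_smul] at h3
    rw [h4]
    nlinarith [sq_nonneg ⟪u, x⟫_ℝ, hμ i]
  · have := ev_up hU hi x hx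
    nlinarith [hμ i, sq_nonneg ‖x‖]

theorem ev_cost (hμ : ∀ j, 0 < μ j) (hμ' : ∀ j, μ (j + 1) = 64 * μ j) :
    cost μ J (evD P u j) ≤ 65 * μ j := by
  have : ∀ i, μ i * (evD P u j).κ i = (if i = j then μ i else 0) + (if i = j + 1 then μ i else 0) :=
    fun i => by
      simp only [evD]
      by_cases h1 : i = j
      · simp [h1]
      · by_cases h2 : i = j + 1 <;> simp [h1, h2]
  simp only [cost, this, Finset.sum_add_distrib, Finset.sum_ite_eq', hμ']
  split_ifs <;> linarith [hμ j]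

variable [FiniteDimensional ℝ E]

theorem ev_good (hμ : ∀ j, 0 < μ j) (hμ' : ∀ j, μ (j + 1) = 64 * μ j) (hF : Flag P)
    (hu : sl P (j + 1) u = u) (h1 : ⟪u, u⟫_ℝ = 1) (hq : qf A u ≤ μ j / 16) :
    Good A μ J P (evD P u j) (evP P u j) := by
  have n1 : ‖u‖ ^ 2 = 1 := by rw [← real_inner_self_eq_norm_sq, h1]
  have k0 : ∀ i, (0 : ℝ) ≤ if i = j ∨ i = j + 1 then 1 else 0 := fun i => by
    split_ifs <;> norm_num
  refine ⟨fun i x => by by_cases h : 0 < i <;> simp [evP, evD, Dat.β, h], fun i => by simp [evD],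
    fun i => UZ.zero, rfl, fun i => by simp [evD], UZ.zero, ⟨μ 0, le_rfl, by simp [evD]⟩,
    fun i => hF.sl_bot (evg_sl hu i), fun i => by simp [evD], fun i => evg_uz h1 i,
    fun i => ?_, fun i => ?_, fun i => (hF.sl i).sub_rk (evg_sl hu i) (evg_uz h1 i),
    fun i x => ?_, fun i x => by rw [ev_sl]; rfl, fun i => ?_, fun i => evg_uz h1 _,
    fun i => ?_, fun i => ?_, fun i => by simpa [evD] using k0 i, fun i => ?_,
    fun i k _ => by simp [evD], fun i k _ h => by simp [evD] at h⟩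
  · simp only [evD, evg]; split_ifs with h h'
    · exact n1.le
    · simp_all
    · simp
    · simp
  · simp only [evD, evg]; split_ifs with h h'
    · rw [h, hμ']; linarith [hμ j]
    · simp_all
    · rw [qf_zero]; linarith [hμ i]
    · simp [qf_zero]
  · refine hF.sl_top ?_
    simp only [evD, LinearMap.sub_apply, rk_apply, map_sub, map_smul, (hF.sl i).idem, evg_sl hu]
  · simp only [evD, evg, LinearMap.sub_apply, rk_apply]
    split_ifs with h h'
    · omega
    · obtain rfl : i = j := by omega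
      simp [sl_apply, hF.sl_bot hu, hF.down (Nat.le_succ i) (hF.sl_bot hu)]
    · simp
    · simp
  · simp only [evD, evg]; split_ifs with h h'
    · exact n1.le
    · simp_all
    · simp
    · simp
  · simp only [evD, evg]; split_ifs with h h'
    · obtain rfl : i = j := by omega
      linarith [hμ i]
    · simp_all
    · rw [qf_zero]; linarith [hμ i]
    · simp [qf_zero]
  · rw [ev_sl, tr_add_rk, tr_sub_rk]
    simp only [evD, evg]
    by_cases h : i = j
    · simp [h, n1]
    · by_cases h' : i = j + 1 <;> simp [h, h', n1]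

theorem ev_pot (hA : A.IsSymmetric) (hA0 : ∀ x, 0 ≤ qf A x) (hμ : ∀ j, 0 < μ j) (hF : Flag P)
    (hj : j + 1 < J) (hu : sl P (j + 1) u = u) (h1 : ⟪u, u⟫_ℝ = 1) (hq : qf A u ≤ μ j / 16)
    (hU : Up A μ 1 P) : pot A μ J (evP P u j) ≤ pot A μ J P + 2 * μ j - μ (j + 1) := by
  have n1 : ‖u‖ ^ 2 = 1 := by rw [← real_inner_self_eq_norm_sq, h1]
  have hm := hμ j
  have h0 := hF.sl_bot hu
  set z := P (j + 1) (A u) with hz
  have z1 : ‖z‖ ^ 2 ≤ μ j * qf A u := by
    have a1 := hU j z ((hF.isP _).idem _)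
    have a2 := hA0 (z + (-μ j) • u)
    have a3 : ⟪z, A u⟫_ℝ = ‖z‖ ^ 2 := by rw [real_inner_comm, (hF.isP _).inner_self]
    rw [qf_add hA, qf_smul, map_smul, inner_smul_right, a3] at a2
    have : μ j * ‖z‖ ^ 2 ≤ μ j * (μ j * qf A u) := by nlinarith
    exact le_of_mul_le_mul_left this hm
  have z2 : hs A (evP P u j (j + 1)) ≤ hs A (P (j + 1)) + μ j ^ 2 / 4 := by
    simp only [evP, evg, if_true]
    rw [hs_upd hA (hF.isP _) h0 (Or.inr h1), LinearMap.add_apply, rk_apply, sq_add_of_orth,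
      norm_smul, mul_pow, n1, Real.norm_eq_abs, sq_abs, ← hz]
    · have := hA0 u
      have e : ⟪u, A u⟫_ℝ = qf A u := rfl
      rw [e]; nlinarith
    · rw [inner_smul_right, (hF.isP _).symm, h0]; simp
  have key : ∀ i, μ i * tr (sl (evP P u j) i) + 4 * (hs A (evP P u j (i + 1)) / μ i) ≤
      μ i * tr (sl P i) + 4 * (hs A (P (i + 1)) / μ i) + (if i = j then 2 * μ i else 0)
        - (if i = j + 1 then μ i else 0) := fun i => by
    rw [ev_sl, tr_add_rk, tr_sub_rk]
    by_cases h : i = j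
    · subst h
      have : hs A (evP P u i (i + 1)) / μ i ≤ hs A (P (i + 1)) / μ i + μ i / 4 := by
        rw [div_add' _ _ _ hm.ne', div_le_div_iff_of_pos_right hm]; linarith
      simp [evg, n1]; linarith
    · have : evP P u j (i + 1) = P (i + 1) := by simp [evP, evg, h, rk_zero]
      rw [this]
      by_cases h' : i = j + 1
      · simp [evg, h', n1]; linarith
      · simp [evg, h, h']
  refine (Finset.sum_le_sum fun i _ => key i).trans (le_of_eq ?_)
  rw [Finset.sum_sub_distrib, Finset.sum_add_distrib, Finset.sum_ite_eq', Finset.sum_ite_eq',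
    if_pos (mem_range.2 (by omega)), if_pos (mem_range.2 hj), pot]

end Vale.Agent.P262
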