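import Vale.Agent.P262.Star

/-! The damped linear filter. -/

namespace Vale.Agent.P262

open scoped InnerProductSpace
open Finset

variable {E : Type*} [NormedAddCommGroup E] [InnerProductSpace ℝ E]
variable {F : Type*} [NormedAddCommGroup F] [InnerProductSpace ℝ F]

/-- the filter -/
noncomputable def Zf (θ : ℝ) (e : ℕ → E) (v : ℕ → F) : ℕ → E →ₗ[ℝ] F
  | 0 => 0
  | k + 1 => Zf θ e v k - θ • (rk (v k) ∘ₗ Zf θ e v k) + (innerₛₗ ℝ (e k)).smulRight (v k)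

theorem Zf_succ (θ : ℝ) (e : ℕ → E) (v : ℕ → F) (k : ℕ) (y : E) :
    Zf θ e v (k + 1) y =
      Zf θ e v k y + (⟪e k, y⟫_ℝ - θ * ⟪v k, Zf θ e v k y⟫_ℝ) • v k := by
  simp only [Zf, LinearMap.add_apply, LinearMap.sub_apply, LinearMap.smul_apply,
    LinearMap.comp_apply, rk_apply, LinearMap.smulRight_apply, innerₛₗ_apply_apply]
  module

variable {θ : ℝ} {e : ℕ → E} {v : ℕ → F}

theorem sq_step (z w : F) (hw : ‖w‖ ≤ 1) (c : ℝ) :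
    ‖z + c • w‖ ^ 2 ≤ ‖z‖ ^ 2 + 2 * c * ⟪w, z⟫_ℝ + c ^ 2 := by
  rw [norm_add_sq_real, inner_smul_right, real_inner_comm, norm_smul, mul_pow, Real.norm_eq_abs,
    sq_abs]
  have : ‖w‖ ^ 2 ≤ 1 := pow_le_one₀ (norm_nonneg _) hw
  nlinarith [sq_nonneg c]

theorem Zf_norm (h0 : 0 < θ) (h1 : θ ≤ 1) (hv : ∀ k, ‖v k‖ ≤ 1) (k : ℕ) (y : E) :
    θ * ‖Zf θ e v k y‖ ^ 2 ≤ ∑ i ∈ range k, ⟪e i, y⟫_ℝ ^ 2 := by
  induction k with
  | zero => simp [Zf]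
  | succ k ih =>
    rw [Zf_succ, Finset.sum_range_succ]
    have h := mul_le_mul_of_nonneg_left (sq_step (Zf θ e v k y) (v k) (hv k)
      (⟪e k, y⟫_ℝ - θ * ⟪v k, Zf θ e v k y⟫_ℝ)) h0.le
    set t := ⟪e k, y⟫_ℝ
    set α := ⟪v k, Zf θ e v k y⟫_ℝ
    have h2 : 0 ≤ (1 - θ) * (t - θ * α) ^ 2 := mul_nonneg (by linarith) (sq_nonneg _)
    nlinarith [sq_nonneg (θ * α)]

theorem Zf_causal {y : E} {k : ℕ} (h : ∀ i < k, ⟪e i, y⟫_ℝ = 0) : Zf θ e v k y = 0 := by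
  induction k with
  | zero => simp [Zf]
  | succ k ih => rw [Zf_succ, ih fun i hi => h i (by omega), h k (by omega)]; simp

theorem Zf_impulse (h0 : 0 < θ) (h1 : θ ≤ 1) (hv : ∀ k, ‖v k‖ ≤ 1) {y : E} {i N : ℕ}
    (hy : ∀ k < N, k ≠ i → ⟪e k, y⟫_ℝ = 0) (k : ℕ) (hk : k ≤ N) :
    ‖Zf θ e v k y‖ ^ 2 + θ * ∑ l ∈ range k, ⟪v l, Zf θ e v l y⟫_ℝ ^ 2 ≤
      ∑ l ∈ range k, ⟪e l, y⟫_ℝ ^ 2 := by
  induction k with
  | zero => simp [Zf]
  | succ k ih =>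
    have ih' := ih (by omega)
    rw [Zf_succ, Finset.sum_range_succ, Finset.sum_range_succ]
    have h := sq_step (Zf θ e v k y) (v k) (hv k) (⟪e k, y⟫_ℝ - θ * ⟪v k, Zf θ e v k y⟫_ℝ)
    by_cases hi : k = i
    · have z : Zf θ e v k y = 0 := Zf_causal fun l hl => hy l (by omega) (by omega)
      rw [z] at h ih' ⊢
      simp only [inner_zero_right] at h ⊢
      nlinarith
    · rw [hy k hk hi] at h ⊢
      have : 0 ≤ θ * (1 - θ) * ⟪v k, Zf θ e v k y⟫_ℝ ^ 2 :=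
        mul_nonneg (mul_nonneg h0.le (by linarith)) (sq_nonneg _)
      nlinarith

theorem Zf_signs (y : E) (k : ℕ) :
    Zf θ e v k y = ∑ i ∈ range k, (⟪e i, y⟫_ℝ - θ * ⟪v i, Zf θ e v i y⟫_ℝ) • v i := by
  induction k with
  | zero => simp [Zf]
  | succ k ih => rw [Finset.sum_range_succ, ← ih, Zf_succ]

theorem list_swap {α : Type*} (Φ : List α) (s : Finset ℕ) (p : ℕ → ℝ) (f : α → ℕ → ℝ) :
    ∑ i ∈ s, p i * (Φ.map fun φ => f φ i).sum = (Φ.map fun φ => ∑ i ∈ s, p i * f φ i).sum := by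
  induction Φ with
  | nil => simp
  | cons a Φ ih => simp [mul_add, Finset.sum_add_distrib, ih]

end Vale.Agent.P262
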