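import Mathlib

/-! Finite sums over infinite types. -/

namespace Vale.Agent.P262

open Function

variable {X Y : Type*} {M : Type*}

theorem fs1 [Zero M] {a : X → ℝ} (ha : HasFiniteSupport a) {f : X → M}
    (h : ∀ x, a x = 0 → f x = 0) : HasFiniteSupport f :=
  ha.subset fun x hx h0 => hx (h x h0)

theorem fs2 [Zero M] {a b : X → ℝ} (ha : HasFiniteSupport a) (hb : HasFiniteSupport b) {f : X → M}
    (h : ∀ x, a x = 0 → b x = 0 → f x = 0) : HasFiniteSupport f :=
  (Set.Finite.union ha hb).subset fun x hx => by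
    by_contra h0
    simp only [Set.mem_union, mem_support, not_or, not_not] at h0
    exact hx (h x h0.1 h0.2)

theorem fs_equiv [Zero M] {a : Y → M} (ha : HasFiniteSupport a) (e : X ≃ Y) :
    HasFiniteSupport (fun x => a (e x)) := ha.fun_comp_of_injective e.injective

theorem fs_sum [Zero M] {f : X ⊕ Y → M} (h1 : HasFiniteSupport fun x => f (Sum.inl x))
    (h2 : HasFiniteSupport fun y => f (Sum.inr y)) : HasFiniteSupport f :=
  ((Set.Finite.image Sum.inl h1).union (Set.Finite.image Sum.inr h2)).subset fun z hz => by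
    rcases z with x | y
    · exact Or.inl ⟨x, hz, rfl⟩
    · exact Or.inr ⟨y, hz, rfl⟩

theorem finsum_sumType [AddCommMonoid M] {f : X ⊕ Y → M}
    (h1 : HasFiniteSupport fun x => f (Sum.inl x))
    (h2 : HasFiniteSupport fun y => f (Sum.inr y)) :
    ∑ᶠ z, f z = ∑ᶠ x, f (Sum.inl x) + ∑ᶠ y, f (Sum.inr y) := by
  rw [finsum_eq_sum _ h1, finsum_eq_sum _ h2, ← Finset.sum_disjSum]
  refine finsum_eq_sum_of_support_subset _ fun z hz => ?_
  rcases z with x | y
  · exact Finset.mem_coe.2 (Finset.inl_mem_disjSum.2 ((Set.Finite.mem_toFinset h1).2 hz))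
  · exact Finset.mem_coe.2 (Finset.inr_mem_disjSum.2 ((Set.Finite.mem_toFinset h2).2 hz))

theorem mean_mem {V : Type*} [AddCommGroup V] [Module ℝ V] {ψ : X → ℝ} (hf : HasFiniteSupport ψ)
    {pos : X → V} {S : ℝ} {m : V} (hS : ∑ᶠ x, ψ x ^ 2 = S) (hS0 : 0 < S)
    (hm : ∑ᶠ x, ψ x ^ 2 • pos x = S • m) {K : Set V} (hK : Convex ℝ K)
    (h : ∀ x, ψ x ≠ 0 → pos x ∈ K) : m ∈ K := by
  have := hK.finsum_mem (w := fun x => S⁻¹ * ψ x ^ 2) (z := pos) (fun x => by positivity)
    (by rw [← mul_finsum, hS, inv_mul_cancel₀ hS0.ne'])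
    (fun x hx => h x fun h0 => hx (by simp [h0]))
  simp only [mul_smul] at this
  rwa [← smul_finsum' _ (fs1 hf fun x hx => by simp [hx]), hm, smul_smul,
    inv_mul_cancel₀ hS0.ne', one_smul] at this

theorem sort_contr (a b c d : ℝ) :
    (max a b - max c d) ^ 2 + (min a b - min c d) ^ 2 ≤ (a - c) ^ 2 + (b - d) ^ 2 := by
  rcases le_total a b with h | h <;> rcases le_total c d with h' | h' <;>
    simp only [max_eq_left, max_eq_right, min_eq_left, min_eq_right, h, h'] <;> nlinarith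

theorem min_low (a b : ℝ) :
    15 / 32 * (a ^ 2 + b ^ 2) ≤ min a b ^ 2 + 4 * (a - b) ^ 2 := by
  rcases le_total a b with h | h <;> simp only [min_eq_left, min_eq_right, h] <;>
    nlinarith [sq_nonneg (16 * (a - b) - (a + b)), sq_nonneg (16 * (a - b) + (a + b)),
      sq_nonneg (a - b)]

end Vale.Agent.P262
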