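import Vale.Agent.P262.Fin

/-! Rounding lemma: a density with small shift energy yields signs with causal offsets. -/

namespace Vale.Agent.P262

open Function Finset

/-- the lifted convex body -/
def lift {V : Type} [AddCommGroup V] [Module ℝ V] (K : Set V) (u : V) : Set (V × ℝ) :=
  {y | ∃ z : ℝ, |z| ≤ 4 * (1 - y.2) ∧ y.1 + (z + 4 * y.2) • u ∈ K ∧ y.1 + (z - 4 * y.2) • u ∈ K}

theorem lift_convex {V : Type} [AddCommGroup V] [Module ℝ V] {K : Set V} (hK : Convex ℝ K) (u : V) :
    Convex ℝ (lift K u) := by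
  rintro y ⟨z, h1, h2, h3⟩ y' ⟨z', h1', h2', h3'⟩ a b ha hb hab
  refine ⟨a * z + b * z', ?_, ?_, ?_⟩
  · simp only [Prod.snd_add, Prod.smul_snd, smul_eq_mul]
    rw [abs_le] at *
    constructor <;> nlinarith [h1.1, h1.2, h1'.1, h1'.2]
  · convert hK h2 h2' ha hb hab using 1
    simp only [Prod.snd_add, Prod.smul_snd, smul_eq_mul, Prod.fst_add, Prod.smul_fst]; module
  · convert hK h3 h3' ha hb hab using 1
    simp only [Prod.snd_add, Prod.smul_snd, smul_eq_mul, Prod.fst_add, Prod.smul_fst]; module

theorem seg_mem {V : Type} [AddCommGroup V] [Module ℝ V] {K : Set V} (hK : Convex ℝ K) {y u : V}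
    {z w r : ℝ} (hw : 0 < w) (h1 : y + (z + w) • u ∈ K) (h2 : y + (z - w) • u ∈ K)
    (hr : |r - z| ≤ w) : y + r • u ∈ K := by
  rw [abs_le] at hr
  have := hK h1 h2 (a := (w + (r - z)) / (2 * w)) (b := (w - (r - z)) / (2 * w))
    (div_nonneg (by linarith) (by linarith)) (div_nonneg (by linarith) (by linarith))
    (by field_simp; ring)
  convert this using 1
  match_scalars
  · field_simp; ring
  · field_simp; ring

theorem KL (n : ℕ) : ∀ (X V : Type) [AddCommGroup V] [Module ℝ V] (sh : ℕ → Equiv.Perm X)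
    (u : ℕ → V) (pos : X → V) (ψ : X → ℝ) (S : ℝ) (m : V) (K : Set V) (ℓ : ℕ → V →ₗ[ℝ] ℝ),
    (∀ i < n, ∀ j < n, ∀ x, sh i (sh j x) = sh j (sh i x)) →
    (∀ i < n, ∀ x, pos (sh i x) = pos x + (4 : ℝ) • u i) →
    (∀ x, 0 ≤ ψ x) → HasFiniteSupport ψ → ∑ᶠ x, ψ x ^ 2 = S → 0 < S →
    ∑ᶠ x, ψ x ^ 2 • pos x = S • m →
    (∀ i < n, ∑ᶠ x, (ψ (sh i x) - ψ ((sh i).symm x)) ^ 2 ≤ S / 64) →
    Convex ℝ K → (∀ x, ψ x ≠ 0 → pos x ∈ K) →
    (∀ k < n, ∀ i, k ≤ i → i < n → ℓ k (u i) = 0) →
    (∀ k < n, ∀ y ∈ K, ∀ y' ∈ K, |ℓ k y - ℓ k y'| ≤ 1 / 2) →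
    ∃ t : ℕ → ℝ, (∀ k < n, t k + ℓ k (∑ i ∈ range n, t i • u i) = 1 ∨
      t k + ℓ k (∑ i ∈ range n, t i • u i) = -1) ∧ m + ∑ i ∈ range n, t i • u i ∈ K := by
  induction n with
  | zero =>
    intro X V _ _ sh u pos ψ S m K ℓ _ _ _ hf hS hS0 hm _ hK hs _ _
    exact ⟨0, by simp, by simpa using mean_mem hf hS hS0 hm hK hs⟩
  | succ n ih =>
    intro X V _ _ sh u pos ψ S m K ℓ hc hp h0 hf hS hS0 hm he hK hs hl1 hl2
    have hmK := mean_mem hf hS hS0 hm hK hs
    set a : X → ℝ := fun x => ψ (sh n x) with ha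
    set b : X → ℝ := fun x => ψ ((sh n).symm x) with hb
    have fa : HasFiniteSupport a := fs_equiv hf _
    have fb : HasFiniteSupport b := fs_equiv hf _
    have pa : ∀ x, pos x = pos (sh n x) + (-4 : ℝ) • u n := fun x => by
      rw [hp n (by omega)]; module
    have pb : ∀ x, pos x = pos ((sh n).symm x) + (4 : ℝ) • u n := fun x => by
      rw [← hp n (by omega), Equiv.apply_symm_apply]
    have sa : ∑ᶠ x, a x ^ 2 = S := by rw [← hS]; exact finsum_comp_equiv (sh n) (f := fun x => ψ x ^ 2)
    have sb : ∑ᶠ x, b x ^ 2 = S := by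
      rw [← hS]; exact finsum_comp_equiv (sh n).symm (f := fun x => ψ x ^ 2)
    have sab : ∑ᶠ x, (a x ^ 2 + b x ^ 2) = 2 * S := by
      rw [finsum_add_distrib (fs1 fa (by simp +contextual)) (fs1 fb (by simp +contextual)), sa, sb]
      ring
    have mv : ∀ (e : Equiv.Perm X) (c : ℝ), (∀ x, pos x = pos (e x) + c • u n) →
        ∑ᶠ x, ψ (e x) ^ 2 • pos x = S • (m + c • u n) := fun e c h => by
      rw [finsum_congr fun x => by rw [h x],
        finsum_comp_equiv e (f := fun x => ψ x ^ 2 • (pos x + c • u n))]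
      simp only [smul_add]
      rw [finsum_add_distrib (fs1 hf (by simp +contextual)) (fs1 hf (by simp +contextual)), hm,
        ← finsum_smul' (fs1 hf (by simp +contextual)), hS]
    have mm : ∀ p q : ℝ, max p q ^ 2 + min p q ^ 2 = p ^ 2 + q ^ 2 := fun p q => by
      rcases le_total p q with h | h <;> simp [h, add_comm]
    have fmax : HasFiniteSupport fun x => max (a x) (b x) := fs2 fa fb (by simp +contextual)
    have fmin : HasFiniteSupport fun x => min (a x) (b x) := fs2 fa fb (by simp +contextual)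
    set B := ∑ᶠ x, min (a x) (b x) ^ 2 with hB
    have B1 : B ≤ S := by
      rw [← sa]
      refine finsum_le_finsum' (fs1 fmin (by simp +contextual)) (fs1 fa (by simp +contextual))
        fun x => pow_le_pow_left₀ (le_min (h0 _) (h0 _)) (min_le_left _ _) 2
    have B2 : 7 / 8 * S ≤ B := by
      have h1 := finsum_le_finsum' (f := fun x => 15 / 32 * (a x ^ 2 + b x ^ 2))
        (g := fun x => min (a x) (b x) ^ 2 + 4 * (a x - b x) ^ 2)
        (fs2 fa fb (by simp +contextual)) (fs2 fa fb (by simp +contextual))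
        fun x => min_low (a x) (b x)
      rw [finsum_add_distrib (fs2 fa fb (by simp +contextual)) (fs2 fa fb (by simp +contextual)),
        ← mul_finsum, ← mul_finsum, sab] at h1
      have := he n (by omega)
      linarith
    obtain ⟨t, t1, z, t2, t3, t4⟩ := ih (X ⊕ X) (V × ℝ) (fun i => Equiv.sumCongr (sh i) (sh i))
      (fun i => (u i, 0)) (Sum.elim (fun x => (pos x, 0)) (fun x => (pos x, 1)))
      (Sum.elim (fun x => max (a x) (b x)) (fun x => min (a x) (b x))) (2 * S) (m, B / (2 * S))
      (lift K (u n)) (fun k => ℓ k ∘ₗ LinearMap.fst ℝ V ℝ)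
      (fun i hi j hj x => by rcases x with x | x <;> simp [hc i (by omega) j (by omega)])
      (fun i hi x => by rcases x with x | x <;> simp [hp i (by omega)])
      (fun x => by
        rcases x with x | x
        · exact le_max_of_le_left (h0 _)
        · exact le_min (h0 _) (h0 _))
      (fs_sum fmax fmin)
      (by
        rw [finsum_sumType (fs1 fmax (by simp +contextual)) (fs1 fmin (by simp +contextual)),
          ← finsum_add_distrib (fs1 fmax (by simp +contextual)) (fs1 fmin (by simp +contextual)),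
          ← sab]
        exact finsum_congr fun x => mm _ _)
      (by linarith)
      (by
        rw [finsum_sumType (fs1 fmax (by simp +contextual)) (fs1 fmin (by simp +contextual)),
          ← finsum_add_distrib (fs1 fmax (by simp +contextual)) (fs1 fmin (by simp +contextual))]
        have e : ∀ x, max (a x) (b x) ^ 2 • (pos x, (0 : ℝ)) + min (a x) (b x) ^ 2 • (pos x, (1 : ℝ))
            = (LinearMap.inl ℝ V ℝ) (a x ^ 2 • pos x + b x ^ 2 • pos x)
              + (LinearMap.inr ℝ V ℝ) (min (a x) (b x) ^ 2) := fun x => by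
          simp [← add_smul, mm]
        simp only [Sum.elim_inl, Sum.elim_inr, e]
        rw [finsum_add_distrib (fs2 fa fb (by simp +contextual)) (fs2 fa fb (by simp +contextual)),
          ← map_finsum _ (fs2 fa fb (by simp +contextual)),
          ← map_finsum _ (fs2 fa fb (by simp +contextual)),
          finsum_add_distrib (fs1 fa (by simp +contextual)) (fs1 fb (by simp +contextual)),
          mv _ _ pa, mv _ _ pb, ← hB]
        refine Prod.ext ?_ ?_
        · simp only [LinearMap.inl_apply, LinearMap.inr_apply, Prod.fst_add, Prod.smul_fst]; module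
        · simp; field_simp)
      (fun i hi => by
        have c1 := hc i (by omega) n (by omega)
        have c2 : ∀ x, (sh n).symm (sh i x) = sh i ((sh n).symm x) := fun x => by
          rw [Equiv.symm_apply_eq, ← c1, Equiv.apply_symm_apply]
        have c3 : ∀ x, sh n ((sh i).symm x) = (sh i).symm (sh n x) := fun x => by
          rw [Equiv.eq_symm_apply, c1, Equiv.apply_symm_apply]
        have c4 : ∀ x, (sh n).symm ((sh i).symm x) = (sh i).symm ((sh n).symm x) := fun x => by
          rw [Equiv.eq_symm_apply, ← c2, Equiv.apply_symm_apply]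
        have f0 : HasFiniteSupport fun x => (ψ (sh i x) - ψ ((sh i).symm x)) ^ 2 :=
          fs2 (fs_equiv hf (sh i)) (fs_equiv hf (sh i).symm) (by simp +contextual)
        have f1 : HasFiniteSupport fun x => (max (a (sh i x)) (b (sh i x))
            - max (a ((sh i).symm x)) (b ((sh i).symm x))) ^ 2 :=
          fs2 (fs_equiv fmax (sh i)) (fs_equiv fmax (sh i).symm) (by simp +contextual)
        have f2 : HasFiniteSupport fun x => (min (a (sh i x)) (b (sh i x))
            - min (a ((sh i).symm x)) (b ((sh i).symm x))) ^ 2 :=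
          fs2 (fs_equiv fmin (sh i)) (fs_equiv fmin (sh i).symm) (by simp +contextual)
        have g1 := fs_equiv f0 (sh n)
        have g2 := fs_equiv f0 (sh n).symm
        rw [finsum_sumType f1 f2]
        refine le_trans (le_of_eq (finsum_add_distrib f1 f2).symm) ?_
        refine (finsum_le_finsum' (f1.add f2) (g1.add g2) fun x => ?_).trans ?_
        · simp only [Pi.add_apply, c1, ← c2, ← c3, ← c4]
          exact sort_contr _ _ _ _
        · refine (le_of_eq (finsum_add_distrib g1 g2)).trans ?_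
          rw [finsum_comp_equiv (sh n) (f := fun x => (ψ (sh i x) - ψ ((sh i).symm x)) ^ 2),
            finsum_comp_equiv (sh n).symm (f := fun x => (ψ (sh i x) - ψ ((sh i).symm x)) ^ 2)]
          linarith [he i (by omega)])
      (lift_convex hK _)
      (fun x hx => by
        have k1 : ∀ x, a x ≠ 0 → pos x + (4 : ℝ) • u n ∈ K := fun x h => by
          rw [← hp n (by omega)]; exact hs _ h
        have k2 : ∀ x, b x ≠ 0 → pos x + (-4 : ℝ) • u n ∈ K := fun x h => by
          have := hs _ h
          rwa [pa, Equiv.apply_symm_apply] at this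
        rcases x with x | x
        · by_cases h : a x = 0
          · have h' : b x ≠ 0 := fun h' => hx (by simp [h, h'])
            exact ⟨-4, by norm_num, by simpa using k2 x h', by simpa using k2 x h'⟩
          · exact ⟨4, by norm_num, by simpa using k1 x h, by simpa using k1 x h⟩
        · have h1 : a x ≠ 0 := fun h => hx (by simp [h, hb, h0])
          have h2 : b x ≠ 0 := fun h => hx (by simp [h, ha, h0])
          exact ⟨0, by norm_num, by simpa using k1 x h1, by simpa using k2 x h2⟩)
      (fun k hk i h1 h2 => by simpa using hl1 k (by omega) i h1 (by omega))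
      (fun k hk y ⟨z, _, hy, _⟩ y' ⟨z', _, hy', _⟩ => by
        simpa [hl1 k (by omega) n (by omega) (by omega)] using hl2 k (by omega) _ hy _ hy')
    have e1 : ∑ i ∈ range n, t i • ((u i, 0) : V × ℝ) = (∑ i ∈ range n, t i • u i, 0) := by
      ext <;> simp [Prod.fst_sum, Prod.snd_sum]
    simp only [e1, Prod.mk_add_mk, add_zero, LinearMap.comp_apply, LinearMap.fst_apply]
      at t1 t2 t3 t4
    set y := ∑ i ∈ range n, t i • u i with hy
    set β := B / (2 * S) with hβ
    have β1 : 7 / 16 ≤ β := by rw [hβ, le_div_iff₀ (by linarith)]; linarith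
    have β2 : β ≤ 1 / 2 := by rw [hβ, div_le_iff₀ (by linarith)]; linarith
    have z0 := hl1 n (by omega) n le_rfl (by omega)
    have c1 : |ℓ n y| ≤ 1 / 2 := by simpa [z0] using hl2 n (by omega) _ t3 _ hmK
    obtain ⟨r, r1, r2⟩ : ∃ r : ℝ, (r + ℓ n y = 1 ∨ r + ℓ n y = -1) ∧ |r - z| ≤ 4 * β := by
      rw [abs_le] at c1 t2
      by_cases h : 0 ≤ z + ℓ n y
      · exact ⟨1 - ℓ n y, Or.inl (by ring), abs_le.2 ⟨by linarith, by linarith⟩⟩
      · exact ⟨-1 - ℓ n y, Or.inr (by ring), abs_le.2 ⟨by linarith, by linarith⟩⟩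
    have e2 : ∑ i ∈ range (n + 1), (if i = n then r else t i) • u i = y + r • u n := by
      rw [Finset.sum_range_succ, if_pos rfl, hy]
      congr 1
      exact Finset.sum_congr rfl fun i hi => by rw [if_neg (mem_range.1 hi).ne]
    refine ⟨fun i => if i = n then r else t i, fun k hk => ?_, ?_⟩
    · rw [e2, map_add, map_smul, hl1 k hk n (by omega) (by omega), smul_zero, add_zero]
      by_cases h : k = n
      · simpa [h] using r1
      · simpa [h] using t1 k (by omega)
    · rw [e2, ← add_assoc]
      exact seg_mem hK (by linarith) t3 t4 r2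

end Vale.Agent.P262
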