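import Vale.Agent.P262.Cut

/-! Costs of kills and pushes. -/

namespace Vale.Agent.P262

open scoped InnerProductSpace
open Finset

theorem abel_mu {μ : ℕ → ℝ} (hμ : ∀ j, 0 < μ j) (hμ' : ∀ j, μ (j + 1) = 64 * μ j) (n : ℕ → ℝ)
    (hn : ∀ j, n j ≤ n (j + 1)) (K : ℕ) :
    ∑ j ∈ range K, μ j * (n K - n j) ≤ 2 * ∑ j ∈ range K, μ j * (n (j + 1) - n j) := by
  induction K with
  | zero => simp
  | succ K ih =>
    have e : ∑ j ∈ range (K + 1), μ j * (n (K + 1) - n j) =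
        (∑ j ∈ range (K + 1), μ j) * (n (K + 1) - n K) + ∑ j ∈ range (K + 1), μ j * (n K - n j) := by
      rw [Finset.sum_mul, ← Finset.sum_add_distrib]
      exact Finset.sum_congr rfl fun j _ => by ring
    rw [e, Finset.sum_range_succ (fun j => μ j * (n K - n j)),
      Finset.sum_range_succ (fun j => μ j * (n (j + 1) - n j))]
    nlinarith [mul_le_mul_of_nonneg_right (mu_sum hμ hμ' K) (sub_nonneg.2 (hn K))]

variable {E : Type*} [NormedAddCommGroup E] [InnerProductSpace ℝ E]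
variable {A : E →ₗ[ℝ] E} {μ : ℕ → ℝ} {J m : ℕ} {P : St E} {δ : E}

theorem Flag.sl_sq (hF : Flag P) (j : ℕ) (x : E) :
    ‖P262.sl P j x‖ ^ 2 = ‖P (j + 1) x‖ ^ 2 - ‖P j x‖ ^ 2 := by
  rw [← (hF.sl j).inner_self, sl_apply, inner_sub_right, (hF.isP _).inner_self,
    (hF.isP _).inner_self]

theorem kill_cost (hA : A.IsSymmetric) (hA0 : ∀ x, 0 ≤ qf A x) (hμ : ∀ j, 0 < μ j)
    (hμ' : ∀ j, μ (j + 1) = 64 * μ j) (hF : Flag P) (hδ : P J δ = δ) (hL : Lo A μ J P) :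
    cost μ J (ctD P J δ) ≤ 2 ^ 22 *
      (4 * ∑ j ∈ range J, if j < J then ‖P (j + 1) (A (P (j + 1) δ))‖ ^ 2 / μ j else 0) := by
  rw [Finset.sum_congr rfl fun j hj => if_pos (mem_range.1 hj)]
  set D := ∑ j ∈ range J, ‖P (j + 1) (A (P (j + 1) δ))‖ ^ 2 / μ j with hD
  set X := ∑ j ∈ range J, μ j * ‖sl P j δ‖ ^ 2 with hX
  have h1 : ∀ j ∈ range J, μ j * ‖sl P j δ‖ ^ 2 / 2048 ≤
      2048 * (‖P (j + 1) (A (P (j + 1) δ))‖ ^ 2 / μ j)
        - (qf A (P (j + 1) δ) - qf A (P j δ)) := fun j hj => by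
    have hm := hμ j
    have a1 := hL j (mem_range.1 hj) _ ((hF.sl j).idem δ)
    have a2 := qf_add hA (-sl P j δ) (P (j + 1) δ)
    have a3 : -sl P j δ + P (j + 1) δ = P j δ := by rw [sl_apply]; abel
    have a4 : qf A (-sl P j δ) = qf A (sl P j δ) := by simp [qf]
    rw [a3, a4, inner_neg_left, ← hF.sl_top ((hF.sl j).idem δ), (hF.isP _).symm,
      hF.sl_top ((hF.sl j).idem δ)] at a2
    set w := P (j + 1) (A (P (j + 1) δ))
    set y := sl P j δ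
    have a5 := real_inner_le_norm y w
    have a6 : 2 * (‖y‖ * ‖w‖) ≤ μ j * ‖y‖ ^ 2 / 2048 + 2048 * (‖w‖ ^ 2 / μ j) := by
      have : μ j * ‖y‖ ^ 2 / 2048 + 2048 * (‖w‖ ^ 2 / μ j) - 2 * (‖y‖ * ‖w‖)
          = (μ j * ‖y‖ - 2048 * ‖w‖) ^ 2 / (2048 * μ j) := by field_simp; ring
      have h : 0 ≤ (μ j * ‖y‖ - 2048 * ‖w‖) ^ 2 / (2048 * μ j) := by positivity
      linarith
    linarith
  have h2 := Finset.sum_le_sum h1
  rw [Finset.sum_sub_distrib, Finset.sum_range_sub (fun j => qf A (P j δ)), ← Finset.sum_div,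
    ← Finset.mul_sum, hF.zero, LinearMap.zero_apply, qf_zero, ← hX, ← hD] at h2
  have h3 := abel_mu hμ hμ' (fun j => ‖P j δ‖ ^ 2)
    (fun j => by have := hF.sl_sq j δ; nlinarith [sq_nonneg ‖sl P j δ‖]) J
  simp only [← hF.sl_sq, ← hX, hδ] at h3
  have h4 : cost μ J (ctD P J δ) = 2 * ∑ j ∈ range J, μ j * (‖δ‖ ^ 2 - ‖P j δ‖ ^ 2) := by
    rw [cost, Finset.mul_sum]
    refine Finset.sum_congr rfl fun j hj => ?_
    simp only [ctD, if_pos (mem_range.1 hj), (hF.isP j).sq_sub]; ring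
  have := hA0 (P J δ)
  rw [h4]; linarith

theorem push_cost (hμ : ∀ j, 0 < μ j) (hμ' : ∀ j, μ (j + 1) = 64 * μ j) (hF : Flag P)
    (h1 : ⟪δ, δ⟫_ℝ = 1) {j : ℕ} (hj : j + 1 < J) : cost μ J (ctD P (j + 1) δ) ≤ 68 * μ j := by
  have n1 : ‖δ‖ ^ 2 = 1 := by rw [← real_inner_self_eq_norm_sq, h1]
  rw [cost, ← Finset.sum_subset (range_subset_range.2 (show j + 2 ≤ J from hj)),
    Finset.sum_range_succ]
  · have : ∑ i ∈ range (j + 1), μ i * (ctD P (j + 1) δ).κ i ≤ ∑ i ∈ range (j + 1), 2 * μ i :=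
      Finset.sum_le_sum fun i hi => by
        simp only [ctD, if_pos (mem_range.1 hi), (hF.isP i).sq_sub, n1]
        nlinarith [hμ i, sq_nonneg ‖P i δ‖]
    rw [← Finset.mul_sum] at this
    have e : (ctD P (j + 1) δ).κ (j + 1) = 1 := by simp [ctD]
    rw [e, hμ']
    linarith [mu_sum hμ hμ' j]
  · intro i _ hi
    rw [mem_range] at hi
    simp only [ctD]
    rw [if_neg (by omega), if_neg (by omega), mul_zero]

variable [FiniteDimensional ℝ E]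

theorem exists_top {Q : E →ₗ[ℝ] E} (hA : A.IsSymmetric) (hQ : IsP Q) {c : ℝ} (hc : 0 < c) {x : E}
    (hx : Q x = x) (hq : c * ‖x‖ ^ 2 < qf A x) :
    ∃ (δ : E) (g : ℝ), Q δ = δ ∧ ⟪δ, δ⟫_ℝ = 1 ∧ c < g ∧ Q (A δ) = g • δ := by
  have hS : (Q ∘ₗ A ∘ₗ Q).IsSymmetric := fun y z => by
    simp only [LinearMap.comp_apply]
    rw [hQ.symm, hA, hQ.symm]
  obtain ⟨r, g, h1, h2, -⟩ := exists_eigen hS
  have : ∃ a, c < g a := by
    by_contra h
    push Not at h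
    have e := h2 x
    simp only [LinearMap.comp_apply] at e
    rw [← hQ.symm, hx] at e
    rw [qf, e, ← r.sum_sq_inner_right x, Finset.mul_sum] at hq
    exact absurd hq (not_lt.2 (Finset.sum_le_sum fun a _ =>
      mul_le_mul_of_nonneg_right (h a) (sq_nonneg _)))
  obtain ⟨a, ha⟩ := this
  have e := h1 a
  simp only [LinearMap.comp_apply] at e
  have e2 : Q (r a) = r a := by
    have := congrArg Q e
    rw [hQ.idem, e, map_smul] at this
    exact (smul_right_injective E (by linarith : g a ≠ 0) this).symm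
  exact ⟨r a, g a, e2, by simp, ha, by rw [← e, e2]⟩

omit [FiniteDimensional ℝ E] in
theorem restore {R : E →ₗ[ℝ] E} (hA : A.IsSymmetric) {u : E} (hQ : IsP (R + rk u)) {c g : ℝ}
    (hU : ∀ x, R x = x → qf A x ≤ c * ‖x‖ ^ 2) (hδ : (R + rk u) δ = δ) (h1 : ⟪δ, δ⟫_ℝ = 1)
    (hg : c < g) (he : (R + rk u) (A δ) = g • δ) {x : E} (hx : (R + rk u) x = x)
    (ho : ⟪δ, x⟫_ℝ = 0) : qf A x ≤ c * ‖x‖ ^ 2 := by
  have n1 : ‖δ‖ ^ 2 = 1 := by rw [← real_inner_self_eq_norm_sq, h1]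
  have q1 : qf A δ = g := by
    rw [qf, ← hδ, hQ.symm, hδ, he, inner_smul_right, h1, mul_one]
  have hR : ∀ y, (R + rk u) y = y → ⟪u, y⟫_ℝ = 0 → R y = y := fun y h h' => by
    simpa [h'] using h
  have hα : ⟪u, δ⟫_ℝ ≠ 0 := fun h => by
    have := hU δ (hR δ hδ h)
    rw [q1, n1] at this; linarith
  have h2 := hU (⟪u, δ⟫_ℝ • x + (-⟪u, x⟫_ℝ) • δ) (hR _ (by rw [map_add, map_smul, map_smul, hx, hδ])
    (by rw [inner_add_right, inner_smul_right, inner_smul_right]; ring))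
  have o1 : ⟪x, A δ⟫_ℝ = 0 := by
    rw [← hx, hQ.symm, he, inner_smul_right, real_inner_comm, ho, mul_zero]
  rw [qf_add hA, qf_smul, qf_smul, q1, map_smul, inner_smul_left, inner_smul_right, o1,
    sq_add_of_orth (by rw [inner_smul_left, inner_smul_right, real_inner_comm δ x, ho]; simp),
    norm_smul, norm_smul, mul_pow, mul_pow, n1, Real.norm_eq_abs, Real.norm_eq_abs, sq_abs,
    sq_abs] at h2
  have h3 : 0 < ⟪u, δ⟫_ℝ ^ 2 := by positivity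
  have h4 : ⟪u, δ⟫_ℝ ^ 2 * qf A x ≤ ⟪u, δ⟫_ℝ ^ 2 * (c * ‖x‖ ^ 2) := by
    nlinarith [sq_nonneg ⟪u, x⟫_ℝ]
  exact le_of_mul_le_mul_left h4 h3

end Vale.Agent.P262
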