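import Vale.Agent.P262.Dens2

/-! The minimax step over column weights. -/

namespace Vale.Agent.P262

open Function Finset

variable {V : Type} [AddCommGroup V] [Module ℝ V] {n : ℕ} {u : ℕ → V}

theorem minimax {K : Set V} {ε₀ : ℝ} (h0 : 0 ≤ ε₀) (h1 : ε₀ < 1 / 64)
    (h : ∀ p : ℕ → ℝ, (∀ i, 0 < p i) →
      ∃ e, Ach n u K e ∧ ∑ i ∈ range n, p i * e i ≤ ε₀ * ∑ i ∈ range n, p i) :
    Ach n u K (fun _ => 1 / 64) := by
  by_contra hc
  let s : Set (Fin n → ℝ) := Set.pi Set.univ fun _ => Set.Iio (1 / 64)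
  let t : Set (Fin n → ℝ) := {x | ∃ e, Ach n u K e ∧ ∀ i : Fin n, x i = e i}
  have hs : Convex ℝ s := convex_pi fun _ _ => convex_Iio _
  have hs' : IsOpen s := isOpen_set_pi Set.finite_univ fun _ _ => isOpen_Iio
  have ht : Convex ℝ t := by
    rintro x ⟨e, he, hx⟩ y ⟨e', he', hy⟩ a b ha hb hab
    exact ⟨_, he.mix he' ha hb hab, fun i => by simp [hx, hy]⟩
  have hd : Disjoint s t := by
    rw [Set.disjoint_left]
    rintro x hx ⟨e, ⟨X, sh, pos, ψ, c, hK⟩, he⟩
    refine hc ⟨X, sh, pos, ψ, c.mono fun i hi => ?_, hK⟩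
    have := hx ⟨i, hi⟩ trivial
    rw [he] at this
    exact le_of_lt this
  obtain ⟨f, w, f1, f2⟩ := geometric_hahn_banach_open hs hs' ht hd
  obtain ⟨c, hf⟩ : ∃ c : Fin n → ℝ, ∀ x, f x = ∑ i, x i * c i :=
    ⟨_, fun x => LinearMap.pi_apply_eq_sum_univ f.toLinearMap x⟩
  have c0 : ∀ i, 0 ≤ c i := fun i => by
    by_contra hi
    push Not at hi
    have := f1 (Pi.single i (|w| / c i)) fun j _ => by
      by_cases hj : j = i
      · subst hj
        simp only [Pi.single_eq_same, Set.mem_Iio]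
        exact lt_of_le_of_lt (div_nonpos_of_nonneg_of_nonpos (abs_nonneg _) hi.le) (by norm_num)
      · simp [hj]
    rw [hf, Finset.sum_eq_single i (fun j _ hj => by simp [hj]) (by simp), Pi.single_eq_same,
      div_mul_cancel₀ _ hi.ne] at this
    linarith [le_abs_self w]
  have g1 := f1 (fun _ => ε₀) fun _ _ => h1
  rw [hf, ← Finset.mul_sum] at g1
  set η := (w - ε₀ * ∑ i, c i) / (ε₀ * n + 1) with hη
  have η0 : 0 < η := div_pos (by linarith) (by positivity)
  obtain ⟨e, e1, e2⟩ := h (fun i => (if hi : i < n then c ⟨i, hi⟩ else 0) + η) fun i => by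
    split_ifs with hi
    · linarith [c0 ⟨i, hi⟩]
    · linarith
  have g2 := f2 (fun i => e i) ⟨e, e1, fun _ => rfl⟩
  rw [hf] at g2
  rw [Finset.sum_range, Finset.sum_range] at e2
  simp only [Fin.is_lt, dif_pos, Fin.eta, Finset.sum_add_distrib, sum_const, card_univ,
    Fintype.card_fin, nsmul_eq_mul] at e2
  obtain ⟨X, sh, pos, ψ, cc, -⟩ := e1
  have g3 : ∑ i : Fin n, e i * c i ≤ ∑ i : Fin n, (c i + η) * e i :=
    Finset.sum_le_sum fun i _ => by nlinarith [cc.en0 i.2]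
  have g4 : η * (ε₀ * n + 1) = w - ε₀ * ∑ i, c i := by rw [hη]; field_simp
  nlinarith

end Vale.Agent.P262
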