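import Vale.Agent.P262.Win5

/-! Rank one updates and the potential. -/

namespace Vale.Agent.P262

open scoped InnerProductSpace
open Finset

variable {E : Type*} [NormedAddCommGroup E] [InnerProductSpace ℝ E]

theorem rk_zero : rk (0 : E) = 0 := by ext x; simp

theorem rk_symm (v : E) : (rk v).IsSymmetric := fun x y => by
  simp only [rk_apply, inner_smul_left, inner_smul_right, conj_trivial]
  rw [real_inner_comm v x, mul_comm]

theorem IsP.add_rk {R : E →ₗ[ℝ] E} (h : IsP R) {g : E} (hg : R g = 0) (hu : UZ g) :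
    IsP (R + rk g) := by
  refine ⟨h.symm.add (rk_symm g), fun x => ?_⟩
  simp only [LinearMap.add_apply, rk_apply, map_add, map_smul, h.idem, hg, hu.smul,
    h.orth hg (h.idem x)]
  simp

theorem IsP.sub_rk {P : E →ₗ[ℝ] E} (h : IsP P) {a : E} (ha : P a = a) (hu : UZ a) :
    IsP (P - rk a) := by
  refine ⟨h.symm.sub (rk_symm a), fun x => ?_⟩
  simp only [LinearMap.sub_apply, rk_apply, map_sub, map_smul, h.idem, ha, hu.smul,
    ← h.symm a x]
  simp

theorem sub_rk_self {P : E →ₗ[ℝ] E} {a : E} (ha : P a = a) (hu : UZ a) : (P - rk a) a = 0 := by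
  simp [ha, hu.smul, -inner_self_eq_norm_sq_to_K]

/-- normalisation -/
noncomputable def nz (v : E) : E := ‖v‖⁻¹ • v

theorem nz_uz (v : E) : UZ (nz v) := by
  by_cases h : v = 0
  · left; simp [nz, h]
  · right
    have := norm_ne_zero_iff.2 h
    rw [nz, inner_smul_left, inner_smul_right, real_inner_self_eq_norm_sq, conj_trivial]
    field_simp

theorem nz_proj {v x : E} (h : ⟪v, x⟫_ℝ = ‖v‖ ^ 2) : ⟪nz v, x⟫_ℝ • nz v = v := by
  by_cases h0 : v = 0
  · simp [nz, h0]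
  · have := norm_ne_zero_iff.2 h0
    rw [nz, inner_smul_left, h, smul_smul, conj_trivial]
    have : ‖v‖⁻¹ * ‖v‖ ^ 2 * ‖v‖⁻¹ = 1 := by field_simp
    rw [this, one_smul]

theorem nz_unit {v : E} (h : ⟪v, v⟫_ℝ = 1) : nz v = v := by
  have : ‖v‖ = 1 := by
    rw [real_inner_self_eq_norm_sq] at h
    nlinarith [norm_nonneg v]
  rw [nz, this]; simp

theorem nz_sq {v : E} (h : v ≠ 0) : ‖nz v‖ ^ 2 = 1 := by
  rcases nz_uz v with h1 | h1
  · simp [nz, h] at h1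
  · rw [← real_inner_self_eq_norm_sq, h1]

variable [FiniteDimensional ℝ E]

theorem tr_rk (g : E) : tr (rk g) = ‖g‖ ^ 2 := by
  rw [tr, LinearMap.trace_eq_sum_inner _ (stdOrthonormalBasis ℝ E),
    ← (stdOrthonormalBasis ℝ E).sum_sq_inner_right g]
  refine Finset.sum_congr rfl fun a _ => ?_
  rw [rk_apply, inner_smul_right, real_inner_comm, sq]

theorem tr_add_rk (R : E →ₗ[ℝ] E) (g : E) : tr (R + rk g) = tr R + ‖g‖ ^ 2 := by
  rw [← tr_rk, tr, map_add]; rfl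

theorem tr_sub_rk (R : E →ₗ[ℝ] E) (g : E) : tr (R - rk g) = tr R - ‖g‖ ^ 2 := by
  rw [← tr_rk, tr, map_sub]; rfl

/-- squared Hilbert-Schmidt norm of the compression of `A` -/
noncomputable def hs (A P : E →ₗ[ℝ] E) : ℝ := ∑ c, ‖P (A (P (stdOrthonormalBasis ℝ E c)))‖ ^ 2

theorem hs_nonneg (A P : E →ₗ[ℝ] E) : 0 ≤ hs A P := by unfold hs; positivity

theorem hs_upd {A R : E →ₗ[ℝ] E} (hA : A.IsSymmetric) (h : IsP R) {g : E} (hg : R g = 0)
    (hu : UZ g) : hs A (R + rk g) = hs A R + ‖(R + rk g) (A g)‖ ^ 2 + ‖R (A g)‖ ^ 2 := by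
  set r := stdOrthonormalBasis ℝ E
  have h1 := hs_add r ((R + rk g) ∘ₗ A ∘ₗ R) g ((R + rk g) (A g)) (by simp [hg])
  have h2 := hu.sq_mul ((R + rk g) ∘ₗ A)
  have h3 := hu.sq_mul (R ∘ₗ A)
  simp only [LinearMap.comp_apply] at h1 h2 h3
  have h4 : ∀ c, ‖(R + rk g) (A (R (r c)))‖ ^ 2 =
      ‖R (A (R (r c)))‖ ^ 2 + ⟪R (A g), r c⟫_ℝ ^ 2 * ‖g‖ ^ 2 := fun c => by
    rw [LinearMap.add_apply, rk_apply, sq_add_of_orth, norm_smul, mul_pow, Real.norm_eq_abs,
      sq_abs, h.symm, hA]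
    rw [inner_smul_right, h.symm, hg]; simp
  simp only [h4, Finset.sum_add_distrib, ← Finset.sum_mul, r.sum_sq_inner_left] at h1
  have h5 : hs A (R + rk g) =
      ∑ c, ‖(R + rk g) (A (R (r c))) + ⟪g, r c⟫_ℝ • (R + rk g) (A g)‖ ^ 2 := by
    refine Finset.sum_congr rfl fun c _ => ?_
    rw [← map_smul, ← map_add, ← map_smul, ← map_add]; rfl
  rw [h5, h1, h2, mul_comm, h3, hs]; ring

/-- the potential -/
noncomputable def pot (A : E →ₗ[ℝ] E) (μ : ℕ → ℝ) (J : ℕ) (P : St E) : ℝ :=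
  ∑ j ∈ range J, (μ j * tr (sl P j) + 4 * (hs A (P (j + 1)) / μ j))

theorem Flag.pot_nonneg {A : E →ₗ[ℝ] E} {μ : ℕ → ℝ} (hμ : ∀ j, 0 < μ j) (J : ℕ) {P : St E}
    (h : Flag P) : 0 ≤ pot A μ J P :=
  Finset.sum_nonneg fun j _ => by
    have := (h.sl j).tr_nonneg; have := hμ j; have := hs_nonneg A (P (j + 1)); positivity

/-- the cost of a step -/
noncomputable def cost (μ : ℕ → ℝ) (J : ℕ) (D : Dat E) : ℝ := ∑ i ∈ range J, μ i * D.κ i

/-- upper invariant -/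
def Up (A : E →ₗ[ℝ] E) (μ : ℕ → ℝ) (c : ℝ) (P : St E) : Prop :=
  ∀ i x, P (i + 1) x = x → qf A x ≤ c * μ i * ‖x‖ ^ 2

/-- lower invariant -/
def Lo (A : E →ₗ[ℝ] E) (μ : ℕ → ℝ) (J : ℕ) (P : St E) : Prop :=
  ∀ j < J, ∀ x, sl P j x = x → μ j / 1024 * ‖x‖ ^ 2 ≤ qf A x

theorem mu_sum {μ : ℕ → ℝ} (hμ : ∀ j, 0 < μ j) (h : ∀ j, μ (j + 1) = 64 * μ j) (l : ℕ) :
    ∑ i ∈ range (l + 1), μ i ≤ 2 * μ l := by
  induction l with
  | zero => simp; linarith [hμ 0]
  | succ l ih => rw [Finset.sum_range_succ, h]; linarith [hμ l]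

theorem mu_inv_sum {μ : ℕ → ℝ} (hμ : ∀ j, 0 < μ j) (h : ∀ j, μ (j + 1) = 64 * μ j) (l J : ℕ) :
    ∑ j ∈ range J, (if l ≤ j then 1 / μ j else 0) ≤ 2 / μ l := by
  have key : ∀ J, l ≤ J → ∑ j ∈ range J, (if l ≤ j then 1 / μ j else 0) + 2 / μ J ≤ 2 / μ l := by
    intro J hJ
    induction J, hJ using Nat.le_induction with
    | base =>
      rw [Finset.sum_eq_zero fun j hj => if_neg (by rw [mem_range] at hj; omega)]; simp
    | succ J hJ ih =>
      rw [Finset.sum_range_succ, if_pos hJ, h]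
      have := hμ J
      have e : 2 / (64 * μ J) = 1 / 32 * (1 / μ J) := by field_simp; norm_num
      have e' : 2 / μ J = 2 * (1 / μ J) := by ring
      have : 0 < 1 / μ J := by positivity
      linarith
  by_cases hJ : l ≤ J
  · have := key J hJ
    have : 0 < 2 / μ J := by have := hμ J; positivity
    linarith
  · rw [Finset.sum_eq_zero fun j hj => if_neg (by rw [mem_range] at hj; omega)]
    have := hμ l; positivity

theorem mu_mono {μ : ℕ → ℝ} (hμ : ∀ j, 0 < μ j) (h : ∀ j, μ (j + 1) = 64 * μ j) : Monotone μ :=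
  monotone_nat_of_le_succ fun j => by rw [h]; linarith [hμ j]

end Vale.Agent.P262
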