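import Vale.Agent.P262.Kill

/-! Building runs: the event loop. -/

namespace Vale.Agent.P262

open scoped InnerProductSpace
open Finset

variable {E : Type*} [NormedAddCommGroup E] [InnerProductSpace ℝ E]

/-- `x` is reached from the zero flag with cost `c`, visiting all top levels in `V` -/
def Reach (A : E →ₗ[ℝ] E) (μ : ℕ → ℝ) (J : ℕ) (x : St E) (c : ℝ) (V : Set (E →ₗ[ℝ] E)) : Prop :=
  ∃ n P D, Run A μ J n P D ∧ (∀ i, P 0 i = 0) ∧ P n = x ∧
    ∑ σ ∈ range n, cost μ J (D σ) ≤ c ∧ ∀ h ∈ V, ∃ τ ≤ n, P τ J = h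

variable {A : E →ₗ[ℝ] E} {μ : ℕ → ℝ} {J : ℕ} {x x' x'' : St E} {c c' : ℝ} {V : Set (E →ₗ[ℝ] E)}

theorem Reach.mono (h : Reach A μ J x c V) (hc : c ≤ c') : Reach A μ J x c' V := by
  obtain ⟨n, P, D, h1, h2, h3, h4, h5⟩ := h
  exact ⟨n, P, D, h1, h2, h3, h4.trans hc, h5⟩

theorem Reach.record (h : Reach A μ J x c V) : Reach A μ J x c (insert (x J) V) := by
  obtain ⟨n, P, D, h1, h2, h3, h4, h5⟩ := h
  refine ⟨n, P, D, h1, h2, h3, h4, ?_⟩
  rintro h (rfl | hh)
  · exact ⟨n, le_rfl, by rw [h3]⟩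
  · exact h5 h hh

theorem Reach.step (h : Reach A μ J x c V) {D₀ : Dat E} (hg : Good A μ J x D₀ x') (hF : Flag x')
    (hU : Up A μ 2 x') : Reach A μ J x' (c + cost μ J D₀) V := by
  obtain ⟨n, P, D, h1, h2, h3, h4, h5⟩ := h
  refine ⟨n + 1, fun τ => if τ ≤ n then P τ else x', fun τ => if τ < n then D τ else D₀,
    ⟨fun τ hτ => ?_, fun τ hτ => ?_, fun τ hτ => ?_⟩, by simpa using h2, by simp, ?_,
    fun h hh => ?_⟩
  · split_ifs with h
    · exact h1.flag τ h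
    · exact hF
  · split_ifs with h
    · exact h1.weak τ h
    · exact hU
  · by_cases h : τ < n
    · simp only [if_pos h, if_pos h.le, if_pos (show τ + 1 ≤ n from h)]
      exact h1.good τ h
    · obtain rfl : τ = n := by omega
      simpa [h3] using hg
  · rw [Finset.sum_range_succ, Finset.sum_congr rfl (g := fun σ => cost μ J (D σ))
      fun σ hσ => by simp only [if_pos (mem_range.1 hσ)]]
    simp only [lt_irrefl, if_false]; linarith
  · obtain ⟨τ, hτ, e⟩ := h5 h hh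
    exact ⟨τ, by omega, by simp only [if_pos hτ, e]⟩

theorem Up.two (hA0 : ∀ j, 0 < μ j) (h : Up A μ 1 x) : Up A μ 2 x := fun i y hy => by
  have := h i y hy
  nlinarith [hA0 i, sq_nonneg ‖y‖]

variable [FiniteDimensional ℝ E]

/-- `x'` is reached from `x` with a cost paid by the potential, without changing the top -/
structure Ext (A : E →ₗ[ℝ] E) (μ : ℕ → ℝ) (J : ℕ) (x x' : St E) : Prop where
  top : x' J = x J
  ker : ∀ y, (∀ i, x i y = 0) → ∀ i, x' i y = 0
  pay : ∀ c V, Reach A μ J x c V → Reach A μ J x' (c + 2 ^ 22 * (pot A μ J x - pot A μ J x')) V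

theorem Ext.refl : Ext A μ J x x := ⟨rfl, fun _ h => h, fun c V h => by simpa using h⟩

theorem Ext.trans (h : Ext A μ J x x') (h' : Ext A μ J x' x'') : Ext A μ J x x'' :=
  ⟨h'.top.trans h.top, fun y hy => h'.ker y (h.ker y hy),
    fun c V hr => (h'.pay _ V (h.pay c V hr)).mono (le_of_eq (by ring))⟩

theorem improve (hA : A.IsSymmetric) (hA0 : ∀ x, 0 ≤ qf A x) (hμ : ∀ j, 0 < μ j)
    (hμ' : ∀ j, μ (j + 1) = 64 * μ j) (hlow : ∀ y, μ 0 * ‖y‖ ^ 2 ≤ qf A y) (hF : Flag x)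
    (hU : Up A μ 1 x) (hL : ¬ Lo A μ J x) :
    ∃ x', Flag x' ∧ Up A μ 1 x' ∧ Ext A μ J x x' ∧ pot A μ J x' ≤ pot A μ J x - μ 0 := by
  unfold Lo at hL
  push Not at hL
  obtain ⟨j, hj, y, hy, hq⟩ := hL
  have hy0 : y ≠ 0 := by rintro rfl; simp [qf_zero] at hq
  rcases j with _ | j
  · have := hlow y
    nlinarith [hμ 0, sq_nonneg ‖y‖]
  have hm := hμ j
  have hm0 : μ 0 ≤ μ j := mu_mono hμ hμ' (Nat.zero_le j)
  set u := nz y with hu
  have u1 : ⟪u, u⟫_ℝ = 1 := by rw [real_inner_self_eq_norm_sq, nz_sq hy0]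
  have u2 : sl x (j + 1) u = u := by rw [hu, nz, map_smul, hy]
  have u3 : qf A u ≤ μ j / 16 := by
    have : 0 < ‖y‖ ^ 2 := by positivity
    rw [hu, nz, qf_smul, inv_pow, inv_mul_le_iff₀ this]
    rw [hμ'] at hq; linarith
  have F1 := ev_flag hF u2 u1
  have G1 := ev_good (J := J) hμ hμ' hF u2 u1 u3
  have W1 := ev_weak hA hA0 hμ hF u2 u1 u3 hU
  have P1 := ev_pot hA hA0 hμ hF hj u2 u1 u3 hU
  have C1 := ev_cost (J := J) (j := j) (P := x) (u := u) hμ hμ'
  have T1 : evP x u j J = x J := by simp [evP, evg, hj.ne', rk_zero]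
  have K1 : ∀ y, (∀ i, x i y = 0) → ∀ i, evP x u j i y = 0 := fun y hy i => by
    rw [evP, LinearMap.add_apply, rk_apply, hy, real_inner_comm,
      (hF.isP _).orth (hy _) (hF.sl_top (evg_sl u2 i))]
    simp
  rw [hμ'] at P1
  by_cases hU1 : ∀ z, evP x u j (j + 1) z = z → qf A z ≤ μ j * ‖z‖ ^ 2
  · refine ⟨evP x u j, F1, fun i z hz => ?_, ⟨T1, K1, fun c V h => ?_⟩, by linarith⟩
    · by_cases hi : i = j
      · subst hi; simpa using hU1 z hz
      · exact ev_up hU hi z hz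
    · exact (h.step G1 F1 W1).mono (by linarith)
  · push Not at hU1
    obtain ⟨z, hz, hzq⟩ := hU1
    obtain ⟨δ, g, d1, d2, d3, d4⟩ := exists_top hA (F1.isP _) hm hz hzq
    have F2 := ct_flag (m := j + 1) (δ := δ) F1
    have G2 := ct_good (m := j + 1) hμ F1 d2 hj.le W1
    have W2 := ct_up (m := j + 1) (δ := δ) F1 W1
    have C2 := push_cost hμ hμ' F1 d2 hj
    have P2 := ct_pot (J := J) (m := j + 1) hA hμ F1 d2
    have P3 : μ j ≤ ∑ i ∈ range J, if i < j + 1 then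
        ‖evP x u j (i + 1) (A (evP x u j (i + 1) δ))‖ ^ 2 / μ i else 0 := by
      refine le_trans ?_ (Finset.single_le_sum (a := j) (fun i _ => ?_) (mem_range.2 (by omega)))
      · rw [if_pos (Nat.lt_succ_self j), d1, d4, norm_smul, mul_pow,
          ← real_inner_self_eq_norm_sq δ, d2, Real.norm_eq_abs, sq_abs, le_div_iff₀ hm]
        nlinarith
      · have := hμ i
        split_ifs <;> positivity
    rw [if_pos hj, hμ'] at P2
    refine ⟨ctP (evP x u j) (j + 1) δ, F2, fun i w hw => ?_,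
      ⟨by rw [ct_high hj, T1], fun y hy i => ct_ker F1 (K1 y hy i), fun c V h => ?_⟩, by linarith⟩
    · by_cases hi : i = j
      · subst hi
        have e : evP x u i (i + 1) = x (i + 1) + rk u := by simp [evP, evg]
        have o := (F2.isP _).orth (ct_kill F1 le_rfl) hw
        have w2 := ct_sub F1 hw
        have hQ := F1.isP (i + 1)
        rw [e] at hQ d1 d4 w2
        rw [one_mul]
        exact restore hA hQ (fun v hv => by simpa using hU i v hv) d1 d2 d3 d4 w2 o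
      · exact ev_up hU hi w (ct_sub F1 hw)
    · exact ((h.step G1 F1 W1).step G2 F2 W2).mono (by linarith)

theorem settle (hA : A.IsSymmetric) (hA0 : ∀ x, 0 ≤ qf A x) (hμ : ∀ j, 0 < μ j)
    (hμ' : ∀ j, μ (j + 1) = 64 * μ j) (hlow : ∀ y, μ 0 * ‖y‖ ^ 2 ≤ qf A y) (hF : Flag x)
    (hU : Up A μ 1 x) : ∃ x', Flag x' ∧ Up A μ 1 x' ∧ Lo A μ J x' ∧ Ext A μ J x x' := by
  obtain ⟨n, hn⟩ := exists_nat_gt (pot A μ J x / μ 0)
  rw [div_lt_iff₀ (hμ 0)] at hn
  induction n generalizing x with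
  | zero => exact absurd (hF.pot_nonneg (A := A) hμ J) (by simpa using hn)
  | succ n ih =>
    by_cases hL : Lo A μ J x
    · exact ⟨x, hF, hU, hL, Ext.refl⟩
    · obtain ⟨x1, a1, a2, a3, a4⟩ := improve hA hA0 hμ hμ' hlow hF hU hL
      obtain ⟨x2, b1, b2, b3, b4⟩ := ih a1 a2 (by push_cast at hn; linarith)
      exact ⟨x2, b1, b2, b3, a3.trans b4⟩

end Vale.Agent.P262
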