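import Vale.Agent.P262.Filter
import Vale.Agent.P262.Minimax

/-! Signed prefix sums of order the square root of the dimension. -/

namespace Vale.Agent.P262

open scoped InnerProductSpace
open Finset

theorem exists_lower (p : ℕ → ℝ) (hp : ∀ i, 0 < p i) (N : ℕ) : ∃ m, 0 < m ∧ ∀ k < N, m ≤ p k := by
  induction N with
  | zero => exact ⟨1, one_pos, by simp⟩
  | succ N ih =>
    obtain ⟨m, h1, h2⟩ := ih
    refine ⟨min m (p N), lt_min h1 (hp N), fun k hk => ?_⟩
    rcases Nat.lt_succ_iff_lt_or_eq.1 hk with h | rfl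
    · exact (min_le_left _ _).trans (h2 k h)
    · exact min_le_right _ _

theorem list_range_sum (f : ℕ → ℝ) (N : ℕ) : ((List.range N).map f).sum = ∑ k ∈ range N, f k := by
  induction N with
  | zero => simp
  | succ N ih => rw [List.range_succ, Finset.sum_range_succ, ← ih]; simp

theorem exists_frame (N : ℕ) : ∃ e : ℕ → EuclideanSpace ℝ (Fin N),
    (∀ k < N, ⟪e k, e k⟫_ℝ = 1) ∧ (∀ k < N, ∀ l < N, k ≠ l → ⟪e k, e l⟫_ℝ = 0) ∧
    ∀ y, ∑ k ∈ range N, ⟪e k, y⟫_ℝ ^ 2 = ‖y‖ ^ 2 := by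
  let b := EuclideanSpace.basisFun (Fin N) ℝ
  refine ⟨fun k => if h : k < N then b ⟨k, h⟩ else 0, fun k hk => ?_, fun k hk l hl h => ?_,
    fun y => ?_⟩
  · simp only [dif_pos hk]; exact b.inner_eq_one _
  · simp only [dif_pos hk, dif_pos hl]; exact b.inner_eq_zero (by simpa using h)
  · rw [Finset.sum_range, ← b.sum_sq_inner_right y]
    simp only [Fin.is_lt, dif_pos, Fin.eta]

variable {F : Type*} [NormedAddCommGroup F] [InnerProductSpace ℝ F] [FiniteDimensional ℝ F]

theorem signs (N : ℕ) (v : ℕ → F) (hv : ∀ k, ‖v k‖ ≤ 1) : ∃ ε : ℕ → ℝ,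
    (∀ k < N, ε k = 1 ∨ ε k = -1) ∧
      ∀ k ≤ N, ‖∑ i ∈ range k, ε i • v i‖ ≤ 2 ^ 49 * √(Module.finrank ℝ F) := by
  obtain ⟨e, e1, e0, e2⟩ := exists_frame N
  set θ : ℝ := 1 / 2 ^ 26 with hθ
  have θ0 : 0 < θ := by rw [hθ]; positivity
  have θ1 : θ ≤ 1 := by rw [hθ]; norm_num
  set d : ℝ := (Module.finrank ℝ F : ℝ) with hd
  have d0 : 0 ≤ d := Nat.cast_nonneg _
  let Z := Zf θ e v
  let ℓ : ℕ → EuclideanSpace ℝ (Fin N) →ₗ[ℝ] ℝ := fun k => (-θ) • (innerₛₗ ℝ (v k) ∘ₗ Z k)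
  have hℓ : ∀ k y, ℓ k y = -θ * ⟪v k, Z k y⟫_ℝ := fun k y => by simp [ℓ]
  let K : Set (EuclideanSpace ℝ (Fin N)) :=
    {y | (∀ k ≤ N, ‖Z k y‖ ≤ 2 ^ 48 * √d) ∧ ∀ k < N, |ℓ k y| ≤ 1 / 4}
  have hK : Convex ℝ K := by
    rintro x ⟨x1, x2⟩ y ⟨y1, y2⟩ a b ha hb hab
    refine ⟨fun k hk => ?_, fun k hk => ?_⟩
    · rw [map_add, map_smul, map_smul]
      refine (norm_add_le _ _).trans ?_
      rw [norm_smul, norm_smul, Real.norm_of_nonneg ha, Real.norm_of_nonneg hb]
      have h1 := mul_le_mul_of_nonneg_left (x1 k hk) ha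
      have h2 := mul_le_mul_of_nonneg_left (y1 k hk) hb
      have : a * (2 ^ 48 * √d) + b * (2 ^ 48 * √d) = 2 ^ 48 * √d := by rw [← add_mul, hab, one_mul]
      linarith
    · rw [map_add, map_smul, map_smul, smul_eq_mul, smul_eq_mul]
      refine (abs_add_le _ _).trans ?_
      rw [abs_mul, abs_mul, abs_of_nonneg ha, abs_of_nonneg hb]
      nlinarith [x2 k hk, y2 k hk]
  have hA : Ach N e K (fun _ => 1 / 64) := by
    refine minimax (ε₀ := 3 / 2 ^ 10) (by norm_num) (by norm_num) fun p hp => ?_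
    obtain ⟨μ₀, m1, m2⟩ := exists_lower p hp N
    let A : EuclideanSpace ℝ (Fin N) →ₗ[ℝ] EuclideanSpace ℝ (Fin N) :=
      ∑ k ∈ range N, p k • rk (e k)
    have hAy : ∀ y, A y = ∑ k ∈ range N, (p k * ⟪e k, y⟫_ℝ) • e k := fun y => by
      simp [A, LinearMap.sum_apply, smul_smul]
    have hq : ∀ y, qf A y = ∑ k ∈ range N, p k * ⟪e k, y⟫_ℝ ^ 2 := fun y => by
      rw [qf, hAy, inner_sum]
      exact Finset.sum_congr rfl fun k _ => by rw [inner_smul_right, real_inner_comm]; ring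
    have hsym : A.IsSymmetric := fun x y => by
      rw [hAy, hAy, inner_sum, sum_inner]
      exact Finset.sum_congr rfl fun k _ => by
        rw [inner_smul_right, inner_smul_left, conj_trivial, real_inner_comm x]; ring
    obtain ⟨Φ, c1, c2⟩ := star hsym m1 (fun y => by
        rw [hq, ← e2, Finset.mul_sum]
        exact Finset.sum_le_sum fun k hk =>
          mul_le_mul_of_nonneg_right (m2 k (mem_range.1 hk)) (sq_nonneg _)) N e p e1
      (fun k l h hl => e0 k (by omega) l hl h.ne) (fun k hk => by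
        rw [hAy, Finset.sum_eq_single k (fun l hl h => by rw [e0 l (mem_range.1 hl) k hk h]; simp)
          (fun h => absurd (mem_range.2 hk) h), e1 k hk, mul_one]) Z rfl
      (fun k _ y h1 h2 => by
        have : Zf θ e v k y = 0 := h1
        show Zf θ e v (k + 1) y = 0
        rw [Zf_succ, this, h2]; simp)
    refine ⟨_, ach_of_list e (ε := 1 / 2 ^ 10) (by norm_num) N
      ((Φ.map fun φ => (1 / 2 ^ 29 : ℝ) • innerₛₗ ℝ φ) ++ (List.range N).map fun k => (8 : ℝ) • ℓ k)
      fun y hy => ⟨fun k hk => ?_, fun k hk => ?_⟩, ?_⟩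
    · obtain ⟨w, w1, w2⟩ := c2 ((1 / 2 ^ 30 : ℝ) • y) (fun φ hφ => by
        have := hy _ (List.mem_append_left _ (List.mem_map_of_mem hφ))
        simp only [LinearMap.smul_apply, innerₛₗ_apply_apply, smul_eq_mul, abs_le] at this
        rw [inner_smul_right, abs_le]
        constructor <;> linarith [this.1, this.2]) k hk
      have h1 := Zf_norm (e := e) θ0 θ1 hv k w
      have h2 : ∑ i ∈ range k, ⟪e i, w⟫_ℝ ^ 2 ≤ ‖w‖ ^ 2 := by
        rw [← e2]
        exact Finset.sum_le_sum_of_subset_of_nonneg (range_subset_range.2 hk)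
          fun _ _ _ => sq_nonneg _
      have h3 : ‖Z k w‖ = 1 / 2 ^ 30 * ‖Z k y‖ := by
        rw [← w2, map_smul, norm_smul, Real.norm_of_nonneg (by positivity)]
      refine (pow_le_pow_iff_left₀ (norm_nonneg _) (by positivity) two_ne_zero).1 ?_
      rw [mul_pow, Real.sq_sqrt d0]
      have h4 : θ * ‖Z k w‖ ^ 2 ≤ 288 * d := h1.trans (h2.trans w1)
      rw [h3, hθ, mul_pow] at h4
      linarith
    · have := hy _ (List.mem_append_right _ (List.mem_map_of_mem (List.mem_range.2 hk)))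
      simp only [LinearMap.smul_apply, smul_eq_mul, abs_le] at this
      rw [abs_le]
      constructor <;> linarith [this.1, this.2]
    · have s1 : ∑ i ∈ range N, p i * ((Φ.map fun φ => (1 / 2 ^ 29 : ℝ) • innerₛₗ ℝ φ).map
          fun φ => φ (e i) ^ 2).sum ≤ 1 / 2 ^ 20 * ∑ i ∈ range N, p i := by
        simp only [List.map_map]
        rw [show (fun i => p i * (Φ.map ((fun φ => φ (e i) ^ 2) ∘
          fun φ => (1 / 2 ^ 29 : ℝ) • innerₛₗ ℝ φ)).sum) = fun i => p i * (Φ.map fun φ =>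
            (1 / 2 ^ 29 * ⟪φ, e i⟫_ℝ) ^ 2).sum from rfl, list_swap]
        have : (fun φ => ∑ i ∈ range N, p i * (1 / 2 ^ 29 * ⟪φ, e i⟫_ℝ) ^ 2) =
            fun φ => 1 / 2 ^ 58 * qf A φ := by
          funext φ
          rw [hq, Finset.mul_sum]
          exact Finset.sum_congr rfl fun k _ => by rw [real_inner_comm]; ring
        rw [this, List.sum_map_mul_left]
        linarith
      have s2 : ∀ i ∈ range N, (((List.range N).map fun k => (8 : ℝ) • ℓ k).map
          fun φ => φ (e i) ^ 2).sum ≤ 1 / 2 ^ 20 := fun i hi => by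
        have hi := mem_range.1 hi
        have h1 := Zf_impulse θ0 θ1 hv (y := e i) (i := i) (N := N)
          (fun k hk h => e0 k hk i hi h) N le_rfl
        rw [e2, ← real_inner_self_eq_norm_sq (e i), e1 i hi] at h1
        have h2 : (((List.range N).map fun k => (8 : ℝ) • ℓ k).map fun φ => φ (e i) ^ 2).sum
            = 64 * θ * (θ * ∑ l ∈ range N, ⟪v l, Zf θ e v l (e i)⟫_ℝ ^ 2) := by
          rw [List.map_map, list_range_sum, Finset.mul_sum, Finset.mul_sum]
          refine Finset.sum_congr rfl fun k _ => ?_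
          simp only [Function.comp_apply, LinearMap.smul_apply, hℓ, smul_eq_mul, Z]; ring
        rw [h2]
        have h3 : 64 * θ = 1 / 2 ^ 20 := by rw [hθ]; norm_num
        rw [h3]
        exact mul_le_of_le_one_right (by positivity)
          (by linarith [sq_nonneg ‖Zf θ e v N (e i)‖])
      have s3 := Finset.sum_le_sum fun i hi => mul_le_mul_of_nonneg_left (s2 i hi) (hp i).le
      simp only [List.map_append, List.sum_append, mul_add, Finset.sum_add_distrib,
        mul_left_comm (p _) 1024, ← Finset.mul_sum, ← Finset.sum_mul] at s3 ⊢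
      linarith
  obtain ⟨X, sh, pos, ψ, c, hs⟩ := hA
  have hm : ∑ᶠ x, ψ x ^ 2 • pos x = (1 : ℝ) • ∑ᶠ x, ψ x ^ 2 • pos x := (one_smul _ _).symm
  have hmK := mean_mem c.hf c.h1 one_pos hm hK hs
  obtain ⟨t, t1, t2⟩ := KL N X _ sh e pos ψ 1 _ K ℓ c.comm c.hp c.h0 c.hf c.h1 one_pos hm c.en hK hs
    (fun k hk i h1 h2 => by
      have : Z k (e i) = 0 := Zf_causal fun l hl => e0 l (by omega) i h2 (by omega)
      rw [hℓ, this]; simp)
    (fun k hk y hy y' hy' => by
      have h1 := abs_le.1 (hy.2 k hk)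
      have h2 := abs_le.1 (hy'.2 k hk)
      rw [abs_le]; constructor <;> linarith [h1.1, h1.2, h2.1, h2.2])
  set y := ∑ i ∈ range N, t i • e i with hy
  refine ⟨fun k => t k + ℓ k y, t1, fun k hk => ?_⟩
  have h1 : ∑ i ∈ range k, (t i + ℓ i y) • v i = Z k y := by
    refine Eq.trans ?_ (Zf_signs y k).symm
    refine Finset.sum_congr rfl fun i hi => ?_
    have hi := mem_range.1 hi
    have : ⟪e i, y⟫_ℝ = t i := by
      rw [hy, inner_sum, Finset.sum_eq_single i (fun l hl h => by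
        rw [inner_smul_right, e0 i (by omega) l (mem_range.1 hl) h.symm, mul_zero])
        (fun h => absurd (mem_range.2 (by omega)) h), inner_smul_right, e1 i (by omega), mul_one]
    rw [this, hℓ]; congr 1; ring
  rw [h1]
  have h2 := t2.1 k hk
  have h3 := hmK.1 k hk
  rw [map_add] at h2
  have h4 := norm_sub_le (Z k (∑ᶠ x, ψ x ^ 2 • pos x) + Z k y) (Z k (∑ᶠ x, ψ x ^ 2 • pos x))
  rw [add_sub_cancel_left] at h4
  linarith

end Vale.Agent.P262
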