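import Vale.Agent.P262.Reach

/-! The main certificate. -/

namespace Vale.Agent.P262

open scoped InnerProductSpace
open Finset

variable {E : Type*} [NormedAddCommGroup E] [InnerProductSpace ℝ E] [FiniteDimensional ℝ E]
variable {F : Type*} [AddCommGroup F] [Module ℝ F] [FiniteDimensional ℝ F]

theorem exists_kill {Q : E →ₗ[ℝ] E} (hQ : IsP Q) (Z : E →ₗ[ℝ] F)
    (h : (Module.finrank ℝ F : ℝ) < tr Q) : ∃ δ, Q δ = δ ∧ ⟪δ, δ⟫_ℝ = 1 ∧ Z δ = 0 := by
  have hp : LinearMap.IsProj (LinearMap.range Q) Q :=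
    ⟨fun x => LinearMap.mem_range_self _ _, by rintro _ ⟨y, rfl⟩; exact hQ.idem y⟩
  rw [tr, hp.trace, Nat.cast_lt] at h
  obtain ⟨⟨_, y, rfl⟩, h1, h2⟩ := (Submodule.ne_bot_iff _).1
    (LinearMap.ker_ne_bot_of_finrank_lt (f := Z ∘ₗ (LinearMap.range Q).subtype) h)
  have h3 : Q y ≠ 0 := fun h => h2 (Subtype.ext h)
  refine ⟨nz (Q y), by rw [nz, map_smul, hQ.idem], by rw [real_inner_self_eq_norm_sq, nz_sq h3], ?_⟩
  have : Z (Q y) = 0 := h1
  rw [nz, map_smul, this, smul_zero]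

theorem star {A : E →ₗ[ℝ] E} (hA : A.IsSymmetric) {μ₀ : ℝ} (hμ0 : 0 < μ₀)
    (hlow : ∀ y, μ₀ * ‖y‖ ^ 2 ≤ qf A y) (N : ℕ) (e : ℕ → E) (p : ℕ → ℝ)
    (he1 : ∀ k < N, ⟪e k, e k⟫_ℝ = 1) (he0 : ∀ k l, k < l → l < N → ⟪e k, e l⟫_ℝ = 0)
    (hAe : ∀ k < N, A (e k) = p k • e k) (Z : ℕ → E →ₗ[ℝ] F) (hZ0 : Z 0 = 0)
    (hZ : ∀ k < N, ∀ y, Z k y = 0 → ⟪e k, y⟫_ℝ = 0 → Z (k + 1) y = 0) :
    Cert A (2 ^ 38 * ∑ k ∈ range N, p k)
      (fun t => ∀ k ≤ N, ∃ y, ‖y‖ ^ 2 ≤ 288 * Module.finrank ℝ F ∧ Z k t = Z k y) := by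
  have hA0 : ∀ y, 0 ≤ qf A y := fun y => le_trans (by positivity) (hlow y)
  have hp : ∀ k < N, μ₀ ≤ p k := fun k hk => by
    have := hlow (e k)
    rwa [qf, hAe k hk, inner_smul_right, ← real_inner_self_eq_norm_sq, he1 k hk, mul_one,
      mul_one] at this
  set μ : ℕ → ℝ := fun j => 64 ^ j * μ₀ with hμd
  have hμ : ∀ j, 0 < μ j := fun j => by simp only [hμd]; positivity
  have hμ' : ∀ j, μ (j + 1) = 64 * μ j := fun j => by simp only [hμd]; ring
  have hlow' : ∀ y, μ 0 * ‖y‖ ^ 2 ≤ qf A y := by simpa [hμd] using hlow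
  obtain ⟨J₀, hJ₀⟩ := pow_unbounded_of_one_lt ((∑ k ∈ range N, p k) / μ₀) (show (1 : ℝ) < 64 by norm_num)
  rw [div_lt_iff₀ hμ0] at hJ₀
  have hl : ∀ k < N, ∃ l < J₀ + 1, p k ≤ μ l ∧ μ l ≤ 64 * p k := fun k hk => by
    have h1 : p k ≤ μ J₀ := (Finset.single_le_sum (f := p)
      (fun i hi => hμ0.le.trans (hp i (mem_range.1 hi))) (mem_range.2 hk)).trans hJ₀.le
    have h2 : ∃ l, p k ≤ μ l := ⟨_, h1⟩
    refine ⟨Nat.find h2, Nat.lt_succ_of_le (Nat.find_min' h2 h1), Nat.find_spec h2, ?_⟩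
    rcases h : Nat.find h2 with _ | l
    · have := hp k hk
      simp only [hμd, pow_zero]; linarith
    · have := Nat.find_min h2 (show l < Nat.find h2 by omega)
      rw [hμ']; linarith [not_le.1 this]
  set J := J₀ + 1
  set d : ℝ := (Module.finrank ℝ F : ℝ) with hd
  have key : ∀ k ≤ N, ∃ (x : St E) (V : Set (E →ₗ[ℝ] E)), Flag x ∧ Up A μ 1 x ∧ Lo A μ J x ∧
      (∀ l, k ≤ l → l < N → ∀ i, x i (e l) = 0) ∧ tr (x J) ≤ d ∧ (∀ y, x J y = 0 → Z k y = 0) ∧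
      Reach A μ J x (2 ^ 22 * (73 * ∑ l ∈ range k, p l - pot A μ J x)) V ∧
      ∀ l ≤ k, ∃ h ∈ V, tr h ≤ d ∧ ∀ y, h y = 0 → Z l y = 0 := by
    intro k hk
    induction k with
    | zero =>
      have F0 : Flag (0 : St E) := ⟨fun _ => IsP.zero, rfl, by simp⟩
      have U0 : ∀ c, Up A μ c (0 : St E) := fun c i y hy => by
        obtain rfl : y = 0 := hy.symm
        simp [qf_zero]
      refine ⟨0, {0}, F0, U0 1, fun j _ y hy => ?_, by simp, by simp [tr, hd], by simp [hZ0],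
        ⟨0, fun _ => 0, fun _ => birthD 0 0 0, ⟨fun _ _ => F0, fun _ _ => U0 2, by simp⟩, by simp,
          rfl, by simp [pot, sl, tr, hs], by simp⟩, ?_⟩
      · obtain rfl : y = 0 := by simpa [sl] using hy.symm
        simp [qf_zero]
      · intro l hl
        obtain rfl : l = 0 := by omega
        exact ⟨0, rfl, by simp [tr, hd], by simp [hZ0]⟩
    | succ k ih =>
      obtain ⟨x, V, a1, a2, a3, a4, a5, a6, a7, a8⟩ := ih (by omega)
      obtain ⟨l, hlJ, l1, l2⟩ := hl k hk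
      have hp0 : 0 ≤ p k := hμ0.le.trans (hp k hk)
      have he := a4 k le_rfl hk
      have F1 := birth_flag (l := l) a1 he (he1 k hk)
      have U1 := birth_up hA hμ hμ' a1 he (he1 k hk) (hAe k hk) l1 a2
      have L1 := birth_lo hA hμ a1 he (he1 k hk) (hAe k hk) l2 a3
      have G1 := birth_good (J := J) hμ a1 he (he1 k hk) (hAe k hk) l1
      have P1 := birth_pot (J := J) hA hμ hμ' a1 he (he1 k hk) (hAe k hk) hp0 l1
      have C1 := birth_cost (J := J) (l := l) (P := x) (e := e k) hμ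
      set x1 := birthP x (e k) l with hx1
      have T1 : x1 J = x J + rk (e k) := by simp only [hx1, birthP, if_pos hlJ]
      have K1 : ∀ m, k + 1 ≤ m → m < N → ∀ i, x1 i (e m) = 0 := fun m h1 h2 i => by
        simp only [hx1, birthP, LinearMap.add_apply, rk_apply, a4 m (by omega) h2]
        split_ifs <;> simp [he0 k m h1 h2]
      have Z1 : ∀ y, x1 J y = 0 → Z (k + 1) y = 0 := fun y hy => by
        have h1 : x1 J (e k) = e k := by
          rw [T1, LinearMap.add_apply, rk_apply, he, he1 k hk]; simp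
        have h2 := (F1.isP J).orth hy h1
        rw [real_inner_comm] at h2
        refine hZ k hk y (a6 y ?_) h2
        simpa [T1, h2] using hy
      have R1 : Reach A μ J x1 (2 ^ 22 * (73 * ∑ l ∈ range (k + 1), p l - pot A μ J x1)) V :=
        (a7.step G1 F1 (U1.two hμ)).mono (by rw [Finset.sum_range_succ]; linarith)
      have tr1 : tr (x1 J) ≤ d + 1 := by
        rw [T1, tr_add_rk, ← real_inner_self_eq_norm_sq, he1 k hk]; linarith
      obtain ⟨x2, F2, U2, K2, t2, Z2, R2⟩ : ∃ x2 : St E, Flag x2 ∧ Up A μ 1 x2 ∧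
          (∀ m, k + 1 ≤ m → m < N → ∀ i, x2 i (e m) = 0) ∧ tr (x2 J) ≤ d ∧
          (∀ y, x2 J y = 0 → Z (k + 1) y = 0) ∧
          Reach A μ J x2 (2 ^ 22 * (73 * ∑ l ∈ range (k + 1), p l - pot A μ J x2)) V := by
        by_cases h : tr (x1 J) ≤ d
        · exact ⟨x1, F1, U1, K1, h, Z1, R1⟩
        · obtain ⟨δ, d1, d2, d3⟩ := exists_kill (F1.isP J) (Z (k + 1)) (not_le.1 h)
          have P2 := ct_pot (J := J) (m := J) hA hμ F1 d2
          have C2 := kill_cost hA hA0 hμ hμ' F1 d1 L1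
          rw [if_neg (lt_irrefl J)] at P2
          refine ⟨ctP x1 J δ, ct_flag F1, ct_up F1 U1, fun m h1 h2 i => ct_ker F1 (K1 m h1 h2 i),
            ?_, fun y hy => ?_, (R1.step (ct_good hμ F1 d2 le_rfl (U1.two hμ)) (ct_flag F1)
              (ct_up F1 (U1.two hμ))).mono (by linarith)⟩
          · rw [ct_top d1 d2, tr_sub_rk, ← real_inner_self_eq_norm_sq, d2]; linarith
          · rw [ct_top d1 d2, LinearMap.sub_apply, rk_apply] at hy
            have := Z1 (y - ⟪δ, y⟫_ℝ • δ) (by rw [map_sub, map_smul, d1, hy])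
            simpa [d3] using this
      obtain ⟨x3, F3, U3, L3, E3⟩ := settle (J := J) hA hA0 hμ hμ' hlow' F2 U2
      refine ⟨x3, insert (x3 J) V, F3, U3, L3, fun m h1 h2 => E3.ker _ (K2 m h1 h2),
        by rwa [E3.top], by rwa [E3.top], ((E3.pay _ _ R2).mono (le_of_eq (by ring))).record,
        fun m hm => ?_⟩
      rcases eq_or_lt_of_le hm with rfl | hm
      · exact ⟨x3 J, Or.inl rfl, by rwa [E3.top], by rwa [E3.top]⟩
      · obtain ⟨h, h1, h2⟩ := a8 m (by omega)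
        exact ⟨h, Or.inr h1, h2⟩
  obtain ⟨x, V, a1, -, -, -, -, -, ⟨n, P, D, r1, r2, r3, r4, r5⟩, a8⟩ := key N le_rfl
  refine (r1.total hA hA0 hμ0 (fun _ => rfl) r2).mono ?_ fun t ht k hk => ?_
  · have h1 := a1.pot_nonneg (A := A) hμ J
    have h2 : 0 ≤ ∑ k ∈ range N, p k :=
      Finset.sum_nonneg fun i hi => hμ0.le.trans (hp i (mem_range.1 hi))
    simp only [cost] at r4
    linarith
  · obtain ⟨h, h1, h2, h3⟩ := a8 k hk
    obtain ⟨τ, hτ, rfl⟩ := r5 h h1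
    refine ⟨P τ J t, (ht τ hτ).trans (by linarith), ?_⟩
    rw [← sub_eq_zero, ← map_sub]
    exact h3 _ (by rw [map_sub, ((r1.flag τ hτ).isP J).idem, sub_self])

end Vale.Agent.P262
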