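import Vale.Agent.P262.Chain

/-! Flags of projections and the local data of one transition. -/

namespace Vale.Agent.P262

open scoped InnerProductSpace
open Finset

variable {E : Type*} [NormedAddCommGroup E] [InnerProductSpace ℝ E]

/-- unit or zero -/
def UZ (v : E) : Prop := v = 0 ∨ ⟪v, v⟫_ℝ = 1

theorem UZ.zero : UZ (0 : E) := Or.inl rfl

theorem UZ.mul {v : E} (h : UZ v) (x : E) : ⟪v, x⟫_ℝ * ⟪v, v⟫_ℝ = ⟪v, x⟫_ℝ := by
  rcases h with rfl | h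
  · simp
  · rw [h, mul_one]

theorem UZ.smul {v : E} (h : UZ v) : ⟪v, v⟫_ℝ • v = v := by
  rcases h with rfl | h
  · simp
  · rw [h, one_smul]

theorem UZ.sq_le {v : E} (h : UZ v) : ‖v‖ ^ 2 ≤ 1 := by
  rcases h with rfl | h
  · simp
  · rw [← real_inner_self_eq_norm_sq, h]

theorem UZ.norm_le {v : E} (h : UZ v) : ‖v‖ ≤ 1 := by
  have := h.sq_le; nlinarith [norm_nonneg v]

theorem UZ.sq_mul {v : E} (h : UZ v) (L : E →ₗ[ℝ] E) : ‖v‖ ^ 2 * ‖L v‖ ^ 2 = ‖L v‖ ^ 2 := by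
  rcases h with rfl | h
  · simp
  · rw [← real_inner_self_eq_norm_sq, h, one_mul]

theorem IsP.orth {P : E →ₗ[ℝ] E} (h : IsP P) {x y : E} (hx : P x = 0) (hy : P y = y) :
    ⟪x, y⟫_ℝ = 0 := by rw [← hy, ← h.symm, hx, inner_zero_left]

theorem IsP.comm {P P' : E →ₗ[ℝ] E} (h : IsP P) (h' : IsP P') (hn : ∀ x, P' (P x) = P x) (x : E) :
    P (P' x) = P x := by
  refine ext_inner_left ℝ fun y => ?_
  rw [← h.symm, ← h'.symm, hn, h.symm]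

theorem sq_add_of_orth {x y : E} (h : ⟪x, y⟫_ℝ = 0) : ‖x + y‖ ^ 2 = ‖x‖ ^ 2 + ‖y‖ ^ 2 := by
  rw [norm_add_sq_real, h]; ring

theorem hs_add {ι : Type*} [Fintype ι] (r : OrthonormalBasis ι ℝ E) (L : E →ₗ[ℝ] E) (g z : E)
    (h : L g = 0) :
    ∑ a, ‖L (r a) + ⟪g, r a⟫_ℝ • z‖ ^ 2 = ∑ a, ‖L (r a)‖ ^ 2 + ‖g‖ ^ 2 * ‖z‖ ^ 2 := by
  have h1 : ∑ a, ⟪L (r a), ⟪g, r a⟫_ℝ • z⟫_ℝ = 0 := by
    have : ∑ a, ⟪L (r a), ⟪g, r a⟫_ℝ • z⟫_ℝ = ⟪L (∑ a, ⟪r a, g⟫_ℝ • r a), z⟫_ℝ := by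
      rw [map_sum, sum_inner]
      refine Finset.sum_congr rfl fun a _ => ?_
      rw [map_smul, inner_smul_left, inner_smul_right, conj_trivial, real_inner_comm (r a) g]
    rw [this, r.sum_repr', h, inner_zero_left]
  simp only [norm_add_sq_real, Finset.sum_add_distrib, ← Finset.mul_sum, h1, norm_smul, mul_pow,
    Real.norm_eq_abs, sq_abs, ← Finset.sum_mul]
  rw [r.sum_sq_inner_left]; ring

/-- a flag of projections -/
abbrev St (E : Type*) [NormedAddCommGroup E] [InnerProductSpace ℝ E] := ℕ → E →ₗ[ℝ] E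

/-- slot projection -/
def sl (P : St E) (j : ℕ) : E →ₗ[ℝ] E := P (j + 1) - P j

theorem sl_apply (P : St E) (j : ℕ) (x : E) : sl P j x = P (j + 1) x - P j x := rfl

/-- nested projections -/
structure Flag (P : St E) : Prop where
  isP : ∀ i, IsP (P i)
  zero : P 0 = 0
  nest : ∀ i j, i ≤ j → ∀ x, P j (P i x) = P i x

theorem Flag.nest' {P : St E} (h : Flag P) {i j : ℕ} (hij : i ≤ j) (x : E) : P i (P j x) = P i x :=
  (h.isP i).comm (h.isP j) (h.nest i j hij) x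

theorem Flag.up {P : St E} (h : Flag P) {i j : ℕ} (hij : i ≤ j) {x : E} (hx : P i x = x) :
    P j x = x := by rw [← hx, h.nest i j hij]

theorem Flag.down {P : St E} (h : Flag P) {i j : ℕ} (hij : i ≤ j) {x : E} (hx : P j x = 0) :
    P i x = 0 := by rw [← h.nest' hij, hx, map_zero]

theorem Flag.sl {P : St E} (h : Flag P) (j : ℕ) : IsP (sl P j) := by
  refine ⟨(h.isP _).symm.sub (h.isP _).symm, fun x => ?_⟩
  simp only [sl_apply, map_sub, (h.isP _).idem, h.nest j (j + 1) (Nat.le_succ _),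
    h.nest' (Nat.le_succ j)]
  abel

theorem Flag.sl_top {P : St E} (h : Flag P) {j : ℕ} {x : E} (hx : P262.sl P j x = x) :
    P (j + 1) x = x := by
  rw [← hx, sl_apply, map_sub, (h.isP _).idem, h.nest j (j + 1) (Nat.le_succ _)]

theorem Flag.sl_bot {P : St E} (h : Flag P) {j : ℕ} {x : E} (hx : P262.sl P j x = x) :
    P j x = 0 := by
  rw [← hx, sl_apply, map_sub, (h.isP _).idem, h.nest' (Nat.le_succ _), sub_self]

theorem Flag.sl_low {P : St E} (h : Flag P) {j : ℕ} {x : E} (hx : P j x = x) :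
    P262.sl P j x = 0 := by
  rw [sl_apply, hx, h.up (Nat.le_succ _) hx, sub_self]

theorem Flag.sum_sl {P : St E} (h : Flag P) (j : ℕ) (x : E) :
    ∑ i ∈ range j, P262.sl P i x = P j x := by
  simp only [sl_apply]
  rw [Finset.sum_range_sub (fun i => P i x), h.zero]; simp

/-- local data of a transition -/
structure Dat (E : Type*) [NormedAddCommGroup E] [InnerProductSpace ℝ E] where
  a : ℕ → E
  γ : ℕ → E
  e : E
  bl : ℕ
  T : ℕ → E →ₗ[ℝ] E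
  f : ℕ → E
  κ : ℕ → ℝ

/-- the born vector seen from level `i` -/
def Dat.β (D : Dat E) (i : ℕ) : E := if D.bl < i then D.e else 0

/-- the local data describe the transition `P → P'` -/
structure Good (A : E →ₗ[ℝ] E) (μ : ℕ → ℝ) (J : ℕ) (P : St E) (D : Dat E) (P' : St E) : Prop where
  upd : ∀ i x, P' i x =
    P i x - ⟪D.a i, x⟫_ℝ • D.a i + ⟪D.β i, x⟫_ℝ • D.β i + ⟪D.γ i, x⟫_ℝ • D.γ i
  a_mem : ∀ i, P i (D.a i) = D.a i
  a_uz : ∀ i, UZ (D.a i)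
  a_top : D.a (J + 1) = 0
  e_ker : ∀ i, P i D.e = 0
  e_uz : UZ D.e
  e_eig : ∃ p, p ≤ μ D.bl ∧ A D.e = p • D.e
  γ_ker : ∀ i, P i (D.γ i) = 0
  γ_e : ∀ i, ⟪D.e, D.γ i⟫_ℝ = 0
  γ_uz : ∀ i, UZ (D.γ i)
  γ_κ : ∀ i, ‖D.γ i‖ ^ 2 ≤ D.κ i
  γ_q : ∀ i, qf A (D.γ i) ≤ 2 * μ i * D.κ i
  T_isP : ∀ j, IsP (D.T j)
  T_mem : ∀ j x, P (j + 1) (D.T j x) = D.T j x
  T_sl : ∀ j x, sl P' j x = D.T j x + ⟪D.f j, x⟫_ℝ • D.f j
  T_f : ∀ j, D.T j (D.f j) = 0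
  f_uz : ∀ j, UZ (D.f j)
  f_κ : ∀ j, ‖D.f j‖ ^ 2 ≤ D.κ j
  f_q : ∀ j, qf A (D.f j) ≤ 2 * μ j * D.κ j
  N_κ : ∀ j, ‖D.T j (D.a j)‖ ^ 2 ≤ D.κ j
  tr_κ : ∀ j, |tr (sl P' j) - tr (sl P j)| ≤ D.κ j
  par : ∀ i j, i ≤ j → P i (D.a j) = ⟪D.a i, D.a j⟫_ℝ • D.a i
  res : ∀ i j, i ≤ j → D.T j (D.a j) ≠ 0 → ‖D.a j - P i (D.a j)‖ ^ 2 ≤ D.κ i

variable {A : E →ₗ[ℝ] E} {μ : ℕ → ℝ} {J : ℕ} {P P' : St E} {D : Dat E}

theorem Good.κ0 (h : Good A μ J P D P') (i : ℕ) : 0 ≤ D.κ i := le_trans (by positivity) (h.f_κ i)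

theorem Good.β_ker (h : Good A μ J P D P') (i j : ℕ) : P i (D.β j) = 0 := by
  unfold Dat.β; split_ifs
  · exact h.e_ker i
  · simp

theorem Good.β_γ (h : Good A μ J P D P') (i j : ℕ) : ⟪D.β i, D.γ j⟫_ℝ = 0 := by
  unfold Dat.β; split_ifs
  · exact h.γ_e j
  · simp

theorem Good.keep (h : Good A μ J P D P') (hP : Flag P) {i : ℕ} {y : E} (hy : P i y = y)
    (ha : ⟪D.a i, y⟫_ℝ = 0) : P' i y = y := by
  rw [h.upd, hy, ha, (hP.isP i).orth (h.β_ker i i) hy, (hP.isP i).orth (h.γ_ker i) hy]; simp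

theorem Good.R_mem (h : Good A μ J P D P') (hP : Flag P) (i : ℕ) (x : E) :
    P i (P i x - ⟪D.a i, x⟫_ℝ • D.a i) = P i x - ⟪D.a i, x⟫_ℝ • D.a i := by
  rw [map_sub, map_smul, (hP.isP i).idem, h.a_mem]

theorem Good.R_orth (h : Good A μ J P D P') (hP : Flag P) {i j : ℕ} (hij : i ≤ j) (x : E) :
    ⟪D.a j, P i x - ⟪D.a i, x⟫_ℝ • D.a i⟫_ℝ = 0 := by
  rw [inner_sub_right, inner_smul_right, ← (hP.isP i).symm, h.par i j hij, inner_smul_left,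
    conj_trivial, real_inner_comm (D.a i) (D.a j)]; ring

theorem Good.sl_T (h : Good A μ J P D P') (j : ℕ) (x : E) : sl P' j (D.T j x) = D.T j x := by
  rw [h.T_sl, (h.T_isP j).idem, (h.T_isP j).orth (h.T_f j) ((h.T_isP j).idem x)]; simp

theorem Good.sl_f (h : Good A μ J P D P') (j : ℕ) : sl P' j (D.f j) = D.f j := by
  rw [h.T_sl, h.T_f, (h.f_uz j).smul, zero_add]

theorem Good.T_low (h : Good A μ J P D P') (hP' : Flag P') {j : ℕ} {y : E} (hy : P' j y = y) :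
    D.T j y = 0 := by
  rw [← (h.T_isP j).comm (hP'.sl j) (h.sl_T j), hP'.sl_low hy, map_zero]

theorem Good.step_sl (h : Good A μ J P D P') (hP : Flag P) (hP' : Flag P') (j : ℕ) (t : E) :
    sl P' j t = D.T j (sl P j t) + ⟪D.a j, t⟫_ℝ • D.T j (D.a j) + ⟪D.f j, t⟫_ℝ • D.f j := by
  have h1 := h.T_low hP' (h.keep hP (h.R_mem hP j t) (h.R_orth hP le_rfl t))
  have h2 := (h.T_isP j).comm (hP.isP (j + 1)) (h.T_mem j) t
  rw [map_sub, map_smul, sub_eq_zero] at h1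
  rw [h.T_sl, sl_apply, map_sub, h2, h1]; abel

end Vale.Agent.P262
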