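import Vale.Agent.P262.State

/-! The contribution of slot `i` to the drift of slot `j`: Bessel and mass bounds. -/

namespace Vale.Agent.P262

open scoped InnerProductSpace
open Finset

variable {E : Type*} [NormedAddCommGroup E] [InnerProductSpace ℝ E]

/-- rank one operator -/
noncomputable def rk (v : E) : E →ₗ[ℝ] E := (innerₛₗ ℝ v).smulRight v

@[simp] theorem rk_apply (v x : E) : rk v x = ⟪v, x⟫_ℝ • v := by simp [rk]

/-- the vector born in slot `i` -/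
def Dat.ε (D : Dat E) (i : ℕ) : E := if D.bl = i then D.e else 0

/-- dual propagator -/
noncomputable def Mw (P : ℕ → St E) (D : ℕ → Dat E) (i j : ℕ) : ℕ → E →ₗ[ℝ] E
  | 0 => sl (P 0) i
  | τ + 1 => Mw P D i j τ ∘ₗ (LinearMap.id - rk ((D τ).a j)) + rk ((D τ).ε i)

theorem Mw_succ (P : ℕ → St E) (D : ℕ → Dat E) (i j τ : ℕ) (x : E) :
    Mw P D i j (τ + 1) x = Mw P D i j τ (x - ⟪(D τ).a j, x⟫_ℝ • (D τ).a j)
      + ⟪(D τ).ε i, x⟫_ℝ • (D τ).ε i := by simp [Mw]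

open Classical in
/-- the functionals -/
noncomputable def bw (P : ℕ → St E) (D : ℕ → Dat E) (i j τ : ℕ) : E :=
  if (D τ).T j ((D τ).a j) = 0 then 0 else Mw P D i j τ ((D τ).a j)

/-- a run of transitions -/
structure Run (A : E →ₗ[ℝ] E) (μ : ℕ → ℝ) (J n : ℕ) (P : ℕ → St E) (D : ℕ → Dat E) : Prop where
  flag : ∀ τ ≤ n, Flag (P τ)
  weak : ∀ τ ≤ n, ∀ i x, P τ (i + 1) x = x → qf A x ≤ 2 * μ i * ‖x‖ ^ 2
  good : ∀ τ < n, Good A μ J (P τ) (D τ) (P (τ + 1))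

variable {A : E →ₗ[ℝ] E} {μ : ℕ → ℝ} {J n : ℕ} {P : ℕ → St E} {D : ℕ → Dat E}

theorem Good.ε_ker {P P' : St E} {D : Dat E} (h : Good A μ J P D P') (i j : ℕ) :
    P i (D.ε j) = 0 := by
  unfold Dat.ε; split_ifs
  · exact h.e_ker i
  · simp

theorem Good.ε_uz {P P' : St E} {D : Dat E} (h : Good A μ J P D P') (j : ℕ) : UZ (D.ε j) := by
  unfold Dat.ε; split_ifs
  · exact h.e_uz
  · exact UZ.zero

theorem Good.ε_new {P P' : St E} {D : Dat E} (h : Good A μ J P D P') (hP : Flag P) {i j : ℕ}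
    (hij : i < j) : P' j (D.ε i) = D.ε i := by
  unfold Dat.ε; split_ifs with hh
  · have hb : D.β j = D.e := by unfold Dat.β; rw [if_pos (by omega)]
    rw [h.upd, h.e_ker, hb, h.e_uz.smul, real_inner_comm, (hP.isP j).orth (h.e_ker j) (h.a_mem j),
      real_inner_comm, h.γ_e]
    simp
  · simp

theorem Run.M1 (h : Run A μ J n P D) {i j : ℕ} (hij : i < j) {τ : ℕ} (hτ : τ ≤ n) (x : E) :
    Mw P D i j τ (P τ j x) = Mw P D i j τ x := by
  induction τ generalizing x with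
  | zero =>
    have hF := h.flag 0 hτ
    simp only [Mw, sl_apply, hF.nest' hij.le, hF.nest' (show i + 1 ≤ j from hij)]
  | succ τ ih =>
    have hF := h.flag τ (by omega)
    have hF' := h.flag (τ + 1) hτ
    have hg := h.good τ (by omega)
    have ih' := ih (by omega)
    rw [Mw_succ, Mw_succ, ← (hF'.isP j).symm ((D τ).ε i), hg.ε_new hF hij]
    congr 1
    have h0 : ⟪(D τ).a j, P (τ + 1) j x⟫_ℝ = 0 := by
      rw [hg.upd, inner_add_right, inner_add_right, hg.R_orth hF le_rfl, inner_smul_right,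
        inner_smul_right, real_inner_comm ((D τ).β j),
        (hF.isP j).orth (hg.β_ker j j) (hg.a_mem j),
        real_inner_comm ((D τ).γ j) ((D τ).a j), (hF.isP j).orth (hg.γ_ker j) (hg.a_mem j)]
      simp
    rw [h0, zero_smul, sub_zero, ← ih', hg.upd, map_add (P τ j), map_add (P τ j), hg.R_mem hF,
      map_smul (P τ j), map_smul (P τ j), hg.β_ker, hg.γ_ker, smul_zero, smul_zero, add_zero, add_zero, ← ih' (x - _), map_sub (P τ j),
      map_smul, hg.a_mem]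

theorem Run.M2 (hA : A.IsSymmetric) (hμ : ∀ i, 0 ≤ μ i) (h : Run A μ J n P D) {i j : ℕ}
    (hij : i < j) (hj : j ≤ J) {τ : ℕ} (hτ : τ ≤ n) (x : E) (l : ℕ → ℝ) :
    P τ (J + 1) (Mw P D i j τ x + ∑ σ ∈ range τ, l σ • bw P D i j σ) =
      Mw P D i j τ x + ∑ σ ∈ range τ, l σ • bw P D i j σ ∧
    qf A (Mw P D i j τ x + ∑ σ ∈ range τ, l σ • bw P D i j σ) ≤
      2 * μ i * ‖Mw P D i j τ x + ∑ σ ∈ range τ, l σ • bw P D i j σ‖ ^ 2 ∧
    ‖Mw P D i j τ x + ∑ σ ∈ range τ, l σ • bw P D i j σ‖ ^ 2 ≤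
      ‖x‖ ^ 2 + ∑ σ ∈ range τ, l σ ^ 2 := by
  induction τ generalizing x with
  | zero =>
    have hF := h.flag 0 hτ
    simp only [Mw, range_zero, sum_empty, add_zero]
    have h1 := hF.sl_top ((hF.sl i).idem x)
    exact ⟨hF.up (by omega) h1, h.weak 0 hτ i _ h1, (hF.sl i).sq_le x⟩
  | succ τ ih =>
    have hF := h.flag τ (by omega)
    have hg := h.good τ (by omega)
    set a := (D τ).a j with ha
    set ε := (D τ).ε i with hε
    obtain ⟨l', hl1, hl2⟩ : ∃ l' : ℝ, l' ^ 2 ≤ l τ ^ 2 ∧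
        l τ • bw P D i j τ = Mw P D i j τ (l' • a) := by
      unfold bw; split_ifs
      · exact ⟨0, by simpa using sq_nonneg _, by simp⟩
      · exact ⟨l τ, le_rfl, by rw [map_smul]⟩
    have hMε : Mw P D i j τ ε = 0 := by
      rw [← h.M1 hij (by omega), hg.ε_ker, map_zero]
    obtain ⟨i1, i2, i3⟩ := ih (by omega) (x - ⟪a, x⟫_ℝ • a + l' • a - ⟪ε, x⟫_ℝ • ε)
    set v := Mw P D i j τ (x - ⟪a, x⟫_ℝ • a + l' • a - ⟪ε, x⟫_ℝ • ε) +
      ∑ σ ∈ range τ, l σ • bw P D i j σ with hv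
    have e1 : Mw P D i j (τ + 1) x + ∑ σ ∈ range (τ + 1), l σ • bw P D i j σ
        = v + ⟪ε, x⟫_ℝ • ε := by
      rw [Mw_succ, Finset.sum_range_succ, hl2, hv, map_sub _ _ (_ • ε), map_smul _ _ ε, hMε,
        map_add]
      simp only [smul_zero, sub_zero]; abel
    rw [e1]
    have o1 : ⟪ε, v⟫_ℝ = 0 := (hF.isP _).orth (hg.ε_ker _ _) i1
    have o2 : ⟪ε, a⟫_ℝ = 0 := (hF.isP _).orth (hg.ε_ker _ _) (hg.a_mem j)
    have o3 : ‖v + ⟪ε, x⟫_ℝ • ε‖ ^ 2 = ‖v‖ ^ 2 + ⟪ε, x⟫_ℝ ^ 2 * ‖ε‖ ^ 2 := by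
      rw [sq_add_of_orth (by rw [inner_smul_right, real_inner_comm ε v, o1, mul_zero]), norm_smul,
        mul_pow, Real.norm_eq_abs, sq_abs]
    refine ⟨?_, ?_, ?_⟩
    · rw [map_add, map_smul, hg.ε_new hF (by omega), hg.keep hF i1 (by rw [hg.a_top]; simp)]
    · obtain ⟨p, hp, hAe⟩ : ∃ p, p ≤ μ i ∧ A ε = p • ε := by
        rw [hε]; unfold Dat.ε; split_ifs with hh
        · rw [← hh]; exact hg.e_eig
        · exact ⟨μ i, le_rfl, by simp⟩
      have q1 : qf A ε = p * ‖ε‖ ^ 2 := by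
        rw [qf, hAe, inner_smul_right, real_inner_self_eq_norm_sq]
      rw [qf_add hA, o3, qf_smul, q1, map_smul, hAe, inner_smul_right, inner_smul_right,
        real_inner_comm ε v, o1]
      have : 0 ≤ ⟪ε, x⟫_ℝ ^ 2 * ‖ε‖ ^ 2 := by positivity
      nlinarith [hμ i]
    · rw [o3, Finset.sum_range_succ]
      have o4 : ‖x - ⟪a, x⟫_ℝ • a + l' • a - ⟪ε, x⟫_ℝ • ε‖ ^ 2
          ≤ ‖x‖ ^ 2 + l' ^ 2 - ⟪ε, x⟫_ℝ ^ 2 := by
        have u1 := (hg.a_uz j).mul x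
        have u2 := (hg.ε_uz i).mul x
        have u3 : ⟪a, a⟫_ℝ ≤ 1 := by rw [real_inner_self_eq_norm_sq]; exact (hg.a_uz j).sq_le
        rw [← ha] at u1; rw [← hε] at u2
        rw [← real_inner_self_eq_norm_sq, ← real_inner_self_eq_norm_sq]
        simp only [inner_sub_left, inner_sub_right, inner_add_left, inner_add_right,
          inner_smul_left, inner_smul_right, conj_trivial, real_inner_comm a x,
          real_inner_comm ε x, real_inner_comm ε a, o2]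
        have u4 : ⟪a, x⟫_ℝ * (⟪a, x⟫_ℝ * ⟪a, a⟫_ℝ) = ⟪a, x⟫_ℝ ^ 2 := by rw [u1]; ring
        have u5 : ⟪ε, x⟫_ℝ * (⟪ε, x⟫_ℝ * ⟪ε, ε⟫_ℝ) = ⟪ε, x⟫_ℝ ^ 2 := by rw [u2]; ring
        have u6 : l' * (⟪a, x⟫_ℝ * ⟪a, a⟫_ℝ) = l' * ⟪a, x⟫_ℝ := by rw [u1]
        nlinarith [sq_nonneg ⟪a, x⟫_ℝ, sq_nonneg l']
      have o5 := (hg.ε_uz i).sq_le
      nlinarith [sq_nonneg ⟪ε, x⟫_ℝ]

end Vale.Agent.P262
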