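import Vale.Agent.P262.Win1

/-! Mass bound and the chained bound for one pair of slots. -/

namespace Vale.Agent.P262

open scoped InnerProductSpace
open Finset

variable {E : Type*} [NormedAddCommGroup E] [InnerProductSpace ℝ E]
variable {A : E →ₗ[ℝ] E} {μ : ℕ → ℝ} {J n : ℕ} {P : ℕ → St E} {D : ℕ → Dat E}

theorem Run.M_le (hA : A.IsSymmetric) (hμ : ∀ i, 0 ≤ μ i) (h : Run A μ J n P D) {i j : ℕ}
    (hij : i < j) (hj : j ≤ J) {τ : ℕ} (hτ : τ ≤ n) (x : E) :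
    qf A (Mw P D i j τ x) ≤ 2 * μ i * ‖Mw P D i j τ x‖ ^ 2 ∧ ‖Mw P D i j τ x‖ ^ 2 ≤ ‖x‖ ^ 2 := by
  simpa using (h.M2 hA hμ hij hj hτ x (fun _ => 0)).2

theorem Run.bessel (hA : A.IsSymmetric) (hμ : ∀ i, 0 ≤ μ i) (h : Run A μ J n P D) {i j : ℕ}
    (hij : i < j) (hj : j ≤ J) (s : Finset ℕ) (hs : s ⊆ range n) (l : ℕ → ℝ) :
    qf A (∑ σ ∈ s, l σ • bw P D i j σ) ≤ 2 * μ i * ∑ σ ∈ s, l σ ^ 2 := by
  classical
  obtain ⟨-, h1, h2⟩ := h.M2 hA hμ hij hj le_rfl 0 (fun σ => if σ ∈ s then l σ else 0)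
  have e1 : ∑ σ ∈ range n, (if σ ∈ s then l σ else 0) • bw P D i j σ
      = ∑ σ ∈ s, l σ • bw P D i j σ := by
    simp only [ite_smul, zero_smul]
    rw [Finset.sum_ite_mem, Finset.inter_eq_right.2 hs]
  have e2 : ∑ σ ∈ range n, (if σ ∈ s then l σ else 0) ^ 2 = ∑ σ ∈ s, l σ ^ 2 := by
    simp only [ite_pow, ne_eq, OfNat.ofNat_ne_zero, not_false_eq_true, zero_pow]
    rw [Finset.sum_ite_mem, Finset.inter_eq_right.2 hs]
  simp only [map_zero, zero_add, norm_zero, e1, e2] at h1 h2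
  refine h1.trans (mul_le_mul_of_nonneg_left (by simpa using h2) (by linarith [hμ i]))

variable [FiniteDimensional ℝ E]

theorem Run.M3 (hA : A.IsSymmetric) (hμ : ∀ i, 0 ≤ μ i) (h : Run A μ J n P D) {i j : ℕ}
    (hij : i < j) (hj : j ≤ J) {τ : ℕ} (hτ : τ ≤ n) :
    ∑ σ ∈ range τ, ‖Mw P D i j σ ((D σ).a i)‖ ^ 2 +
      ∑ c, ‖Mw P D i j τ (P τ i (stdOrthonormalBasis ℝ E c))‖ ^ 2 ≤ ∑ σ ∈ range τ, (D σ).κ i := by
  induction τ with
  | zero =>
    have hF := h.flag 0 hτ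
    simp [Mw, hF.sl_low ((hF.isP i).idem _)]
  | succ τ ih =>
    have hF := h.flag τ (by omega)
    have hg := h.good τ (by omega)
    have ih' := ih (by omega)
    set r := stdOrthonormalBasis ℝ E
    set M := Mw P D i j τ with hM
    set L : E →ₗ[ℝ] E := M ∘ₗ (P τ i - rk ((D τ).a i)) with hL
    have hLx : ∀ x, L x = M (P τ i x - ⟪(D τ).a i, x⟫_ℝ • (D τ).a i) := fun x => by simp [hL]
    have e1 : ∀ x, M (P τ i x) = L x + ⟪(D τ).a i, x⟫_ℝ • M ((D τ).a i) := fun x => by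
      rw [hLx, map_sub, map_smul]; abel
    have e2 : ∀ x, Mw P D i j (τ + 1) (P (τ + 1) i x) =
        L x + ⟪(D τ).γ i, x⟫_ℝ • Mw P D i j (τ + 1) ((D τ).γ i) := fun x => by
      have f1 : Mw P D i j (τ + 1) ((D τ).β i) = 0 := by
        have f2 : ⟪(D τ).a j, (D τ).β i⟫_ℝ = 0 := by
          rw [real_inner_comm]; exact (hF.isP j).orth (hg.β_ker j i) (hg.a_mem j)
        have f3 : ⟪(D τ).ε i, (D τ).β i⟫_ℝ = 0 := by
          unfold Dat.ε Dat.β; split_ifs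
          · omega
          all_goals simp
        rw [Mw_succ, f2, f3, zero_smul, sub_zero, zero_smul, add_zero,
          ← h.M1 hij (by omega), hg.β_ker, map_zero]
      rw [hg.upd, map_add, map_add, map_smul, map_smul, f1, Mw_succ, hg.R_orth hF hij.le,
        (hF.isP i).orth (hg.ε_ker i i) (hg.R_mem hF i x), hLx]
      simp [hM]
    have z1 : L ((D τ).a i) = 0 := by rw [hLx, hg.a_mem, (hg.a_uz i).smul, sub_self, map_zero]
    have z2 : L ((D τ).γ i) = 0 := by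
      rw [hLx, hg.γ_ker, real_inner_comm, (hF.isP i).orth (hg.γ_ker i) (hg.a_mem i)]; simp
    simp only [e1] at ih'
    simp only [e2]
    rw [hs_add r L _ _ z1, (hg.a_uz i).sq_mul] at ih'
    rw [hs_add r L _ _ z2, (hg.γ_uz i).sq_mul, Finset.sum_range_succ, Finset.sum_range_succ]
    have := (h.M_le hA hμ hij hj hτ ((D τ).γ i)).2
    have := hg.γ_κ i
    linarith

theorem Run.mass (hA : A.IsSymmetric) (hμ : ∀ i, 0 ≤ μ i) (h : Run A μ J n P D) {i j : ℕ}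
    (hij : i < j) (hj : j ≤ J) :
    ∑ σ ∈ range n, qf A (bw P D i j σ) ≤ 8 * μ i * ∑ σ ∈ range n, (D σ).κ i := by
  have h3 := h.M3 hA hμ hij hj le_rfl
  have h4 : 0 ≤ ∑ c, ‖Mw P D i j n (P n i (stdOrthonormalBasis ℝ E c))‖ ^ 2 := by positivity
  have h5 : ∀ σ ∈ range n, qf A (bw P D i j σ) ≤
      4 * μ i * (‖Mw P D i j σ ((D σ).a i)‖ ^ 2 + (D σ).κ i) := fun σ hσ => by
    have hσ := mem_range.1 hσ
    have hg := h.good σ hσ
    have hk := hg.κ0 i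
    have hm := hμ i
    unfold bw; split_ifs with hh
    · rw [qf_zero]; positivity
    · have r1 := hg.res i j hij.le hh
      have r2 := (h.M_le hA hμ hij hj hσ.le ((D σ).a j - P σ i ((D σ).a j))).2
      refine (h.M_le hA hμ hij hj hσ.le _).1.trans ?_
      have r3 : Mw P D i j σ ((D σ).a j) = ⟪(D σ).a i, (D σ).a j⟫_ℝ • Mw P D i j σ ((D σ).a i)
          + Mw P D i j σ ((D σ).a j - P σ i ((D σ).a j)) := by
        rw [map_sub, hg.par i j hij.le, map_smul]; abel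
      have r4 : |⟪(D σ).a i, (D σ).a j⟫_ℝ| ≤ 1 := (abs_real_inner_le_norm _ _).trans
        (mul_le_one₀ (hg.a_uz i).norm_le (norm_nonneg _) (hg.a_uz j).norm_le)
      have r5 : ‖Mw P D i j σ ((D σ).a j)‖ ≤ ‖Mw P D i j σ ((D σ).a i)‖
          + ‖Mw P D i j σ ((D σ).a j - P σ i ((D σ).a j))‖ := by
        rw [r3]
        refine (norm_add_le _ _).trans (add_le_add_left ?_ _)
        rw [norm_smul, Real.norm_eq_abs]
        exact mul_le_of_le_one_left (norm_nonneg _) r4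
      have r6 := pow_le_pow_left₀ (norm_nonneg _) r5 2
      have r7 : ‖Mw P D i j σ ((D σ).a j)‖ ^ 2 ≤
          2 * (‖Mw P D i j σ ((D σ).a i)‖ ^ 2 + (D σ).κ i) := by
        nlinarith [sq_nonneg (‖Mw P D i j σ ((D σ).a i)‖
          - ‖Mw P D i j σ ((D σ).a j - P σ i ((D σ).a j))‖)]
      nlinarith
  refine (Finset.sum_le_sum h5).trans ?_
  rw [← Finset.mul_sum, Finset.sum_add_distrib]
  nlinarith [hμ i]

/-- the part of slot `j` coming from slot `i` -/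
noncomputable def Yw (P : ℕ → St E) (D : ℕ → Dat E) (i j : ℕ) (t : E) (τ : ℕ) : E :=
  Yc (fun σ => (D σ).T j) (fun σ => (D σ).T j ((D σ).a j)) (bw P D i j) t 0 τ

theorem Run.pair (hA : A.IsSymmetric) (hA0 : ∀ x, 0 ≤ qf A x) (hμ : ∀ i, 0 ≤ μ i)
    (h : Run A μ J n P D) {i j : ℕ} (hij : i < j) (hj : j ≤ J) {S ω η : ℝ} (hS : 0 ≤ S)
    (hω : 0 < ω) (hη : 0 < η) (htr : ∀ τ ≤ n, tr (sl (P τ) j) ≤ 2 * S)
    (hκ : ∑ σ ∈ range n, (D σ).κ j ≤ S) :
    Cert A (14 / ω ^ 2 * (η * ∑ σ ∈ range n, (D σ).κ j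
        + 16 * μ i ^ 2 / η * ∑ σ ∈ range n, (D σ).κ i))
      (fun t => ∀ τ ≤ n, ‖Yw P D i j t τ‖ ≤ 10 * ω * √S) := by
  have hc := chain (A := A) hA0 (R := fun σ => (D σ).T j) (Q := fun σ => sl (P (σ + 1)) j)
    (N := fun σ => (D σ).T j ((D σ).a j)) (b := bw P D i j) (k := fun σ => (D σ).κ j) (n₀ := n)
    (μ := 2 * μ i) (S := S) (η := η) (by linarith [hμ i]) hη hS
    (fun τ hτ x => ((h.good τ hτ).T_isP j).norm_le x) (fun τ hτ => (h.flag (τ + 1) hτ).sl j)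
    (fun τ hτ x => (h.good τ hτ).sl_T j x) (fun τ hτ => (h.good τ hτ).sl_T j _)
    (fun τ hτ => htr (τ + 1) hτ) (fun τ hτ => (h.good τ hτ).N_κ j)
    (fun s hs l => h.bessel hA hμ hij hj s hs l) n 0 (by omega) 1 ω one_pos hω
    (by simpa [← Finset.range_eq_Ico] using hκ)
  refine hc.mono ?_ fun t ht => ht
  rw [zero_add, ← Finset.range_eq_Ico, Finset.sum_add_distrib, ← Finset.mul_sum, ← Finset.mul_sum,
    mul_one_div]
  refine mul_le_mul_of_nonneg_left (add_le_add_right ?_ _) (by positivity)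
  have := mul_le_mul_of_nonneg_left (h.mass hA hμ hij hj)
    (show 0 ≤ 2 * μ i / η by have := hμ i; positivity)
  refine this.trans (le_of_eq ?_)
  field_simp; ring

end Vale.Agent.P262
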