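import Vale.Agent.P262.Win2

/-! Decomposition of a slot inside a window. -/

namespace Vale.Agent.P262

open scoped InnerProductSpace
open Finset

variable {E : Type*} [NormedAddCommGroup E] [InnerProductSpace ℝ E]

/-- checked part of the lower levels -/
noncomputable def wad (D : ℕ → Dat E) (j : ℕ) (t : E) : ℕ → E
  | 0 => 0
  | τ + 1 => wad D j t τ - ⟪(D τ).a j, wad D j t τ⟫_ℝ • (D τ).a j + ⟪(D τ).γ j, t⟫_ℝ • (D τ).γ j

/-- checked part of the slot -/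
noncomputable def ykn (P : ℕ → St E) (D : ℕ → Dat E) (j : ℕ) (t : E) : ℕ → E
  | 0 => sl (P 0) j t
  | τ + 1 => (D τ).T j (ykn P D j t τ) + ⟪(D τ).a j, wad D j t τ⟫_ℝ • (D τ).T j ((D τ).a j)
      + ⟪(D τ).f j, t⟫_ℝ • (D τ).f j

variable {A : E →ₗ[ℝ] E} {μ : ℕ → ℝ} {J n : ℕ} {P : ℕ → St E} {D : ℕ → Dat E}

theorem Dat.sum_ε (D : Dat E) (j : ℕ) (x t : E) :
    ∑ i ∈ range j, ⟪D.ε i, x⟫_ℝ * ⟪D.ε i, t⟫_ℝ = ⟪D.β j, x⟫_ℝ * ⟪D.β j, t⟫_ℝ := by
  have : ∀ i, ⟪D.ε i, x⟫_ℝ * ⟪D.ε i, t⟫_ℝ = if D.bl = i then ⟪D.e, x⟫_ℝ * ⟪D.e, t⟫_ℝ else 0 :=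
    fun i => by unfold Dat.ε; split_ifs <;> simp
  simp only [this, Finset.sum_ite_eq, mem_range]
  unfold Dat.β; split_ifs <;> simp

theorem Run.I1 (h : Run A μ J n P D) (j : ℕ) (t : E) {τ : ℕ} (hτ : τ ≤ n) (x : E) :
    ⟪x, P τ j t⟫_ℝ = ⟪x, wad D j t τ⟫_ℝ + ∑ i ∈ range j, ⟪Mw P D i j τ x, t⟫_ℝ := by
  induction τ generalizing x with
  | zero =>
    have hF := h.flag 0 hτ
    simp only [Mw, wad, inner_zero_right, zero_add]
    rw [← sum_inner, hF.sum_sl, (hF.isP j).symm]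
  | succ τ ih =>
    have hF := h.flag τ (by omega)
    have hg := h.good τ (by omega)
    have ih' := ih (by omega) (x - ⟪(D τ).a j, x⟫_ℝ • (D τ).a j)
    simp only [Mw_succ, inner_add_left, inner_smul_left, conj_trivial, Finset.sum_add_distrib,
      Dat.sum_ε]
    have e1 : ⟪(D τ).a j, P τ j t⟫_ℝ = ⟪(D τ).a j, t⟫_ℝ := by
      rw [← (hF.isP j).symm, hg.a_mem]
    rw [inner_sub_left, inner_sub_left, inner_smul_left, inner_smul_left, e1] at ih'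
    rw [hg.upd, wad]
    simp only [inner_add_right, inner_sub_right, inner_smul_right, conj_trivial,
      real_inner_comm ((D τ).a j) x, real_inner_comm ((D τ).β j) x] at ih' ⊢
    linarith

theorem Run.I2 (h : Run A μ J n P D) (j : ℕ) (t : E) {τ : ℕ} (hτ : τ ≤ n) :
    sl (P τ) j t = ykn P D j t τ + ∑ i ∈ range j, Yw P D i j t τ := by
  induction τ with
  | zero => simp [ykn, Yw, Yc]
  | succ τ ih =>
    have hF := h.flag τ (by omega)
    have hg := h.good τ (by omega)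
    have e1 := h.I1 j t (show τ ≤ n by omega) ((D τ).a j)
    rw [← (hF.isP j).symm, hg.a_mem] at e1
    have e2 : ∀ i, Yw P D i j t (τ + 1) = (D τ).T j (Yw P D i j t τ)
        + ⟪Mw P D i j τ ((D τ).a j), t⟫_ℝ • (D τ).T j ((D τ).a j) := fun i => by
      simp only [Yw, Yc, zero_add]
      congr 1
      unfold bw; split_ifs with hh
      · simp [hh]
      · rfl
    rw [hg.step_sl hF (h.flag _ hτ), ih (by omega), ykn, e1]
    simp only [e2, map_add, map_sum, Finset.sum_add_distrib, ← Finset.sum_smul, add_smul]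
    abel

theorem Run.I3 (h : Run A μ J n P D) (j : ℕ) (t : E)
    (hc : ∀ τ < n, |⟪(D τ).f j, t⟫_ℝ| ≤ 1 ∧ |⟪(D τ).γ j, t⟫_ℝ| ≤ 1) {τ : ℕ} (hτ : τ ≤ n) :
    P τ j (wad D j t τ) = wad D j t τ ∧ sl (P τ) j (ykn P D j t τ) = ykn P D j t τ ∧
      ‖ykn P D j t τ‖ ^ 2 + ‖wad D j t τ‖ ^ 2 ≤
        ‖sl (P 0) j t‖ ^ 2 + 2 * ∑ σ ∈ range τ, (D σ).κ j := by
  induction τ with
  | zero => simp [ykn, wad, ((h.flag 0 hτ).sl j).idem]
  | succ τ ih =>
    have hF := h.flag τ (by omega)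
    have hg := h.good τ (by omega)
    obtain ⟨i1, i2, i3⟩ := ih (by omega)
    obtain ⟨c1, c2⟩ := hc τ (by omega)
    set w := wad D j t τ
    set y := ykn P D j t τ
    set a := (D τ).a j with ha
    have r1 := hg.R_mem hF j w
    have r2 := hg.R_orth hF (le_refl j) w
    rw [i1] at r1 r2
    have g1 : P (τ + 1) j ((D τ).γ j) = (D τ).γ j := by
      rw [hg.upd, hg.γ_ker, hg.β_γ, (hg.γ_uz j).smul, real_inner_comm,
        (hF.isP j).orth (hg.γ_ker j) (hg.a_mem j)]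
      simp
    refine ⟨?_, ?_, ?_⟩
    · rw [wad, map_add, map_smul, hg.keep hF r1 r2, g1]
    · rw [ykn, map_add, map_add, map_smul, map_smul, hg.sl_T, hg.sl_T, hg.sl_f]
    · have o1 : ⟪y, a⟫_ℝ = 0 := (hF.isP j).orth (hF.sl_bot i2) (hg.a_mem j)
      have s1 : ∀ (c : ℝ) (v : E), |c| ≤ 1 → ‖v‖ ^ 2 ≤ (D τ).κ j → ‖c • v‖ ^ 2 ≤ (D τ).κ j :=
        fun c v h1 h2 => by
          rw [norm_smul, mul_pow, Real.norm_eq_abs]
          exact (mul_le_of_le_one_left (by positivity) (pow_le_one₀ (abs_nonneg _) h1)).trans h2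
      have n1 : ‖ykn P D j t (τ + 1)‖ ^ 2 ≤ ‖y‖ ^ 2 + ⟪a, w⟫_ℝ ^ 2 + (D τ).κ j := by
        rw [ykn, ← map_smul, ← map_add, sq_add_of_orth]
        · have k1 := (hg.T_isP j).sq_le (y + ⟪a, w⟫_ℝ • a)
          rw [sq_add_of_orth (by rw [inner_smul_right, o1, mul_zero]), norm_smul, mul_pow,
            Real.norm_eq_abs, sq_abs] at k1
          have k2 := s1 _ _ c1 (hg.f_κ j)
          have k3 := (hg.a_uz j).sq_le
          nlinarith [sq_nonneg ⟪a, w⟫_ℝ]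
        · rw [inner_smul_right, (hg.T_isP j).symm, hg.T_f]; simp
      have n2 : ‖wad D j t (τ + 1)‖ ^ 2 ≤ ‖w‖ ^ 2 - ⟪a, w⟫_ℝ ^ 2 + (D τ).κ j := by
        have k0 : wad D j t (τ + 1) = w - ⟪a, w⟫_ℝ • a + ⟪(D τ).γ j, t⟫_ℝ • (D τ).γ j := rfl
        rw [k0, sq_add_of_orth]
        · have k2 := s1 _ _ c2 (hg.γ_κ j)
          have k3 := (hg.a_uz j).mul w
          rw [norm_sub_sq_real, norm_smul, mul_pow, Real.norm_eq_abs, sq_abs, inner_smul_right,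
            real_inner_comm a w, ← real_inner_self_eq_norm_sq a]
          rw [← ha] at k3
          have k4 : ⟪a, w⟫_ℝ ^ 2 * ⟪a, a⟫_ℝ = ⟪a, w⟫_ℝ ^ 2 := by rw [sq, mul_assoc, k3]
          linarith
        · rw [inner_smul_right, real_inner_comm ((D τ).γ j) (w - _),
            (hF.isP j).orth (hg.γ_ker j) r1, mul_zero]
      rw [Finset.sum_range_succ]
      linarith

end Vale.Agent.P262
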