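import Vale.Agent.P262.Win3

/-! The window lemma. -/

namespace Vale.Agent.P262

open scoped InnerProductSpace
open Finset

theorem geo_succ (x : ℕ → ℝ) (j : ℕ) : ∑ i ∈ range (j + 1), (1 / 2 : ℝ) ^ (j + 1 - i) * x i =
    (∑ i ∈ range (j + 1), (1 / 2 : ℝ) ^ (j - i) * x i) / 2 := by
  rw [Finset.sum_div]
  refine Finset.sum_congr rfl fun i hi => ?_
  have : j + 1 - i = (j - i) + 1 := by rw [mem_range] at hi; omega
  rw [this, pow_succ]; ring

theorem geo_one (j : ℕ) : ∑ i ∈ range j, (1 / 2 : ℝ) ^ (j - i) ≤ 1 := by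
  induction j with
  | zero => simp
  | succ j ih =>
    have := geo_succ (fun _ => 1) j
    simp only [mul_one] at this
    rw [this, Finset.sum_range_succ]; simp only [Nat.sub_self, pow_zero]; linarith

theorem geo_sum (x : ℕ → ℝ) (hx : ∀ i, 0 ≤ x i) (J : ℕ) :
    ∑ j ∈ range J, ∑ i ∈ range (j + 1), (1 / 2 : ℝ) ^ (j - i) * x i ≤ 2 * ∑ i ∈ range J, x i := by
  have key : ∀ J, ∑ j ∈ range (J + 1), ∑ i ∈ range (j + 1), (1 / 2 : ℝ) ^ (j - i) * x i
      + ∑ i ∈ range (J + 1), (1 / 2 : ℝ) ^ (J - i) * x i = 2 * ∑ i ∈ range (J + 1), x i := by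
    intro J
    induction J with
    | zero => simp; ring
    | succ J ih =>
      rw [Finset.sum_range_succ _ (J + 1), Finset.sum_range_succ x (J + 1),
        Finset.sum_range_succ _ (J + 1), geo_succ]
      simp only [Nat.sub_self, pow_zero]; linarith
  rcases J with _ | J
  · simp
  · have h := key J
    have : 0 ≤ ∑ i ∈ range (J + 1), (1 / 2 : ℝ) ^ (J - i) * x i :=
      Finset.sum_nonneg fun i _ => by have := hx i; positivity
    linarith

variable {E : Type*} [NormedAddCommGroup E] [InnerProductSpace ℝ E]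

/-- cost of one step for slot `j` -/
noncomputable def cw (μ : ℕ → ℝ) (D : Dat E) (j : ℕ) : ℝ :=
  ∑ i ∈ range (j + 1), (1 / 2 : ℝ) ^ (j - i) * (μ i * D.κ i)

variable {A : E →ₗ[ℝ] E} {μ : ℕ → ℝ} {μ₀ : ℝ} {J n : ℕ} {P : ℕ → St E} {D : ℕ → Dat E}

theorem Run.drift (h : Run A μ J n P D) (j : ℕ) {τ : ℕ} (hτ : τ ≤ n) :
    |tr (sl (P τ) j) - tr (sl (P 0) j)| ≤ ∑ σ ∈ range τ, (D σ).κ j := by
  induction τ with
  | zero => simp
  | succ τ ih =>
    have h1 := ih (by omega)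
    have h2 := (h.good τ (by omega)).tr_κ j
    rw [Finset.sum_range_succ]
    rw [abs_le] at *
    constructor <;> linarith [h1.1, h1.2, h2.1, h2.2]

theorem Run.sum_mono (h : Run A μ J n P D) (j : ℕ) {τ : ℕ} (hτ : τ ≤ n) :
    ∑ σ ∈ range τ, (D σ).κ j ≤ ∑ σ ∈ range n, (D σ).κ j :=
  Finset.sum_le_sum_of_subset_of_nonneg (range_subset_range.2 hτ)
    fun σ hσ _ => (h.good σ (mem_range.1 hσ)).κ0 j

variable [FiniteDimensional ℝ E]

theorem Run.window (hA : A.IsSymmetric) (hA0 : ∀ x, 0 ≤ qf A x) (hμ0 : 0 < μ₀)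
    (hμ : ∀ j, μ j = 64 ^ j * μ₀) (h : Run A μ J n P D) {j : ℕ} (hj : j ≤ J)
    (hκ : ∑ σ ∈ range n, (D σ).κ j ≤ tr (sl (P 0) j) / 2) :
    Cert A (2 * μ j * tr (sl (P 0) j) + 224 * ∑ σ ∈ range n, cw μ (D σ) j)
      (fun t => ∀ τ ≤ n, ‖sl (P τ) j t‖ ^ 2 ≤ 288 * tr (sl (P τ) j)) := by
  have hμp : ∀ i, 0 < μ i := fun i => by rw [hμ]; positivity
  have hF := h.flag 0 (Nat.zero_le _)
  set S := tr (sl (P 0) j) with hS
  have hS0 : 0 ≤ S := (hF.sl j).tr_nonneg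
  have hd : ∀ τ ≤ n, |tr (sl (P τ) j) - S| ≤ S / 2 := fun τ hτ =>
    (h.drift j hτ).trans ((h.sum_mono j hτ).trans hκ)
  have c0 := cert_refresh (A := A) (hF.sl j) (μ := 2 * μ j)
    (fun x hx => h.weak 0 (Nat.zero_le _) j x (hF.sl_top hx))
  have c1 := Cert.sum (A := A) (range n) _ _ (fun τ _ =>
    (Cert.single ((D τ).f j)).and (Cert.single ((D τ).γ j)))
  have c2 := Cert.sum (A := A) (range j) _ _ (fun i hi =>
    h.pair hA hA0 (fun i => (hμp i).le) (mem_range.1 hi) hj hS0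
      (ω := (1 / 2) ^ (j - i)) (η := μ j / 8 ^ (j - i)) (by positivity)
      (by have := hμp j; positivity)
      (fun τ hτ => by have := (abs_le.1 (hd τ hτ)).2; linarith) (by linarith))
  set K : ℕ → ℝ := fun i => ∑ σ ∈ range n, (D σ).κ i with hK
  have hK0 : ∀ i, 0 ≤ K i := fun i => Finset.sum_nonneg fun σ hσ => (h.good σ (mem_range.1 hσ)).κ0 i
  refine ((c0.and c1).and c2).mono ?_ ?_
  · have e1 : ∑ σ ∈ range n, cw μ (D σ) j =
        ∑ i ∈ range j, (1 / 2 : ℝ) ^ (j - i) * (μ i * K i) + μ j * K j := by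
      simp only [cw]
      rw [Finset.sum_comm, Finset.sum_range_succ]
      simp only [hK, Finset.mul_sum, Nat.sub_self, pow_zero, one_mul]
    have e2 : ∑ τ ∈ range n, (qf A ((D τ).f j) + qf A ((D τ).γ j)) ≤ 4 * (μ j * K j) := by
      simp only [hK, Finset.mul_sum]
      refine Finset.sum_le_sum fun σ hσ => ?_
      have hg := h.good σ (mem_range.1 hσ)
      linarith [hg.f_q j, hg.γ_q j]
    have e3 : ∀ i ∈ range j, 14 / ((1 / 2 : ℝ) ^ (j - i)) ^ 2 * (μ j / 8 ^ (j - i) * K j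
        + 16 * μ i ^ 2 / (μ j / 8 ^ (j - i)) * K i) =
        14 * (μ j * K j) * (1 / 2 : ℝ) ^ (j - i)
          + 224 * ((1 / 2 : ℝ) ^ (j - i) * (μ i * K i)) := fun i hi => by
      obtain ⟨k, rfl⟩ : ∃ k, j = i + k := ⟨j - i, by rw [mem_range] at hi; omega⟩
      have f1 : μ (i + k) = ((2 : ℝ) ^ k) ^ 6 * μ i := by
        rw [hμ, hμ, pow_add, ← pow_mul, mul_comm k 6, pow_mul]; norm_num; ring
      have f2 : (8 : ℝ) ^ k = (2 ^ k) ^ 3 := by rw [← pow_mul, mul_comm k 3, pow_mul]; norm_num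
      have f3 : (1 / 2 : ℝ) ^ k = 1 / 2 ^ k := by rw [div_pow, one_pow]
      rw [Nat.add_sub_cancel_left, f1, f2, f3]
      have := hμp i
      field_simp; ring
    rw [Finset.sum_congr rfl e3, Finset.sum_add_distrib (s := range j), ← Finset.mul_sum,
      ← Finset.mul_sum, e1, ← hS]
    have e4 : 0 ≤ μ j * K j := mul_nonneg (hμp j).le (hK0 j)
    nlinarith [geo_one j]
  · rintro t ⟨⟨t0, t1⟩, t2⟩ τ hτ
    obtain ⟨-, -, i3⟩ := h.I3 j t (fun τ hτ => t1 τ (mem_range.2 hτ)) hτ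
    have b1 : ‖ykn P D j t τ‖ ≤ 2 * √S := by
      refine (pow_le_pow_iff_left₀ (norm_nonneg _) (by positivity) two_ne_zero).1 ?_
      rw [mul_pow, Real.sq_sqrt hS0]
      nlinarith [h.sum_mono j hτ, sq_nonneg ‖wad D j t τ‖]
    have b2 : ‖∑ i ∈ range j, Yw P D i j t τ‖ ≤ 10 * √S := by
      refine (norm_sum_le _ _).trans ((Finset.sum_le_sum fun i hi => t2 i hi τ hτ).trans ?_)
      rw [← Finset.sum_mul, ← Finset.mul_sum]
      nlinarith [geo_one j, Real.sqrt_nonneg S]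
    have b3 : ‖sl (P τ) j t‖ ≤ 12 * √S := by
      rw [h.I2 j t hτ]; linarith [norm_add_le (ykn P D j t τ) (∑ i ∈ range j, Yw P D i j t τ)]
    have b4 := pow_le_pow_left₀ (norm_nonneg _) b3 2
    rw [mul_pow, Real.sq_sqrt hS0] at b4
    have := (abs_le.1 (hd τ hτ)).1
    linarith

end Vale.Agent.P262
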