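import Vale.Agent.P262.Win4

/-! All windows, all slots. -/

namespace Vale.Agent.P262

open scoped InnerProductSpace
open Finset

variable {E : Type*} [NormedAddCommGroup E] [InnerProductSpace ℝ E]
variable {A : E →ₗ[ℝ] E} {μ : ℕ → ℝ} {μ₀ : ℝ} {J n : ℕ} {P : ℕ → St E} {D : ℕ → Dat E}

theorem Run.shift (h : Run A μ J n P D) (a m : ℕ) (ham : a + m ≤ n) :
    Run A μ J m (fun τ => P (a + τ)) (fun τ => D (a + τ)) :=
  ⟨fun τ hτ => h.flag _ (by omega), fun τ hτ => h.weak _ (by omega),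
    fun τ hτ => h.good (a + τ) (by omega)⟩

theorem Run.cut (h : Run A μ J n P D) (m : ℕ) (hm : m ≤ n) : Run A μ J m P D :=
  ⟨fun τ hτ => h.flag _ (by omega), fun τ hτ => h.weak _ (by omega),
    fun τ hτ => h.good τ (by omega)⟩

theorem Good.cw_ge {P P' : St E} {D : Dat E} (h : Good A μ J P D P') (hμ : ∀ i, 0 ≤ μ i) (j : ℕ) :
    μ j * D.κ j ≤ cw μ D j := by
  rw [cw, Finset.sum_range_succ, Nat.sub_self, pow_zero, one_mul, le_add_iff_nonneg_left]
  exact Finset.sum_nonneg fun i _ => by have := hμ i; have := h.κ0 i; positivity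

variable [FiniteDimensional ℝ E]

theorem Run.slot (hA : A.IsSymmetric) (hA0 : ∀ x, 0 ≤ qf A x) (hμ0 : 0 < μ₀)
    (hμ : ∀ j, μ j = 64 ^ j * μ₀) {j : ℕ} (hj : j ≤ J) (n : ℕ) :
    ∀ {P : ℕ → St E} {D : ℕ → Dat E}, Run A μ J n P D →
    Cert A (2 * μ j * tr (sl (P 0) j) + 230 * ∑ σ ∈ range n, cw μ (D σ) j)
      (fun t => ∀ τ ≤ n, ‖sl (P τ) j t‖ ^ 2 ≤ 288 * tr (sl (P τ) j)) := by
  induction n using Nat.strong_induction_on with
  | _ n ih =>
  intro P D h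
  have hμp : ∀ i, 0 ≤ μ i := fun i => by rw [hμ]; positivity
  have hS0 : 0 ≤ tr (sl (P 0) j) := ((h.flag 0 (Nat.zero_le _)).sl j).tr_nonneg
  have hcw : ∀ σ < n, 0 ≤ cw μ (D σ) j := fun σ hσ =>
    le_trans (mul_nonneg (hμp j) ((h.good σ hσ).κ0 j)) ((h.good σ hσ).cw_ge hμp j)
  obtain ⟨k, hk, h1, h2⟩ := exists_stop (fun k => ∑ σ ∈ range k, (D σ).κ j) (tr (sl (P 0) j) / 2)
    (by simp only [range_zero, sum_empty]; positivity) n
  have w := (h.cut k hk).window hA hA0 hμ0 hμ hj h1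
  rcases eq_or_lt_of_le hk with rfl | hkn
  · refine w.mono ?_ fun t ht => ht
    have : 0 ≤ ∑ σ ∈ range k, cw μ (D σ) j :=
      Finset.sum_nonneg fun σ hσ => hcw σ (mem_range.1 hσ)
    linarith
  · have h2 := h2.resolve_left hkn.ne
    obtain ⟨m, rfl⟩ : ∃ m, n = k + 1 + m := ⟨n - (k + 1), by omega⟩
    have w2 := ih m (by omega) (h.shift (k + 1) m le_rfl)
    refine (w.and w2).mono ?_ ?_
    · have d := (abs_le.1 (h.drift j (show k + 1 ≤ k + 1 + m by omega))).2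
      have e1 : μ j * ∑ σ ∈ range (k + 1), (D σ).κ j ≤ ∑ σ ∈ range (k + 1), cw μ (D σ) j := by
        rw [Finset.mul_sum]
        exact Finset.sum_le_sum fun σ hσ =>
          (h.good σ (by rw [mem_range] at hσ; omega)).cw_ge hμp j
      have e2 : ∑ σ ∈ range k, cw μ (D σ) j ≤ ∑ σ ∈ range (k + 1), cw μ (D σ) j := by
        rw [Finset.sum_range_succ]; linarith [hcw k (by omega)]
      rw [Finset.sum_range_add (fun σ => cw μ (D σ) j) (k + 1) m]
      simp only [add_zero]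
      have e3 : tr (sl (P (k + 1)) j) ≤ 3 * ∑ σ ∈ range (k + 1), (D σ).κ j := by linarith
      have e4 := mul_le_mul_of_nonneg_left e3 (hμp j)
      linarith
    · rintro t ⟨t1, t2⟩ τ hτ
      by_cases hτk : τ ≤ k
      · exact t1 τ hτk
      · obtain ⟨τ', rfl⟩ : ∃ τ', τ = k + 1 + τ' := ⟨τ - (k + 1), by omega⟩
        exact t2 τ' (by omega)

omit [FiniteDimensional ℝ E] in
theorem tr_sl (P : St E) (j : ℕ) : tr (sl P j) = tr (P (j + 1)) - tr (P j) := by
  simp only [tr, sl, map_sub]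

theorem Run.total (hA : A.IsSymmetric) (hA0 : ∀ x, 0 ≤ qf A x) (hμ0 : 0 < μ₀)
    (hμ : ∀ j, μ j = 64 ^ j * μ₀) (h : Run A μ J n P D) (h0 : ∀ i, P 0 i = 0) :
    Cert A (460 * ∑ σ ∈ range n, ∑ i ∈ range J, μ i * (D σ).κ i)
      (fun t => ∀ τ ≤ n, ‖P τ J t‖ ^ 2 ≤ 288 * tr (P τ J)) := by
  have hμp : ∀ i, 0 ≤ μ i := fun i => by rw [hμ]; positivity
  refine (Cert.sum (range J) _ _ (fun j hj =>
    Run.slot hA hA0 hμ0 hμ (mem_range.1 hj).le n h)).mono ?_ ?_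
  · simp only [tr_sl, h0, sub_self, mul_zero, zero_add]
    rw [← Finset.mul_sum, Finset.sum_comm]
    have : ∑ σ ∈ range n, ∑ j ∈ range J, cw μ (D σ) j ≤
        ∑ σ ∈ range n, 2 * ∑ i ∈ range J, μ i * (D σ).κ i :=
      Finset.sum_le_sum fun σ hσ => geo_sum (fun i => μ i * (D σ).κ i)
        (fun i => mul_nonneg (hμp i) ((h.good σ (mem_range.1 hσ)).κ0 i)) J
    rw [← Finset.mul_sum] at this
    linarith
  · intro t ht τ hτ
    have hF := h.flag τ hτ
    have e1 : tr (P τ J) = ∑ j ∈ range J, tr (sl (P τ) j) := by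
      simp only [tr_sl]
      rw [Finset.sum_range_sub (fun i => tr (P τ i)), hF.zero]; simp [tr]
    rw [← (hF.isP J).inner_self, ← hF.sum_sl, inner_sum, e1, Finset.mul_sum]
    exact Finset.sum_le_sum fun j hj => by
      rw [(hF.sl j).inner_self]; exact ht j hj τ hτ

end Vale.Agent.P262
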